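import Crest.Agent.X212.Exc36.Nf

/-! F-EXC (helper36), part 6: the halves of face objects can be exchanged. -/

set_option autoImplicit false
set_option linter.unusedSectionVars false
noncomputable section
open scoped Manifold ContDiff Topology
open Set Function Filter MeasureTheory

namespace Crest.Agent.X212.Exc36
open An M G75 Eqv71 Nd18 Ins26 Jb7 Wrd81
open An.Job (Sol)

theorem eqv_congr {M ι lam : Type} [Fintype ι] [Fintype lam] {B B' : Base M ι lam} {m m' : Md M ι lam}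
    {k k' : Cut M lam} {u u' : M → CL m.V m'.V} {a a'} (h : k.Eqv k' B B' u a a')
    (e : u' k.x0 = u k.x0) : k.Eqv k' B B' u' a a' := h.imp fun _ h => e ▸ h

variable {κ lam : Type} [Fintype κ] [Fintype lam] [DecidableEq lam] {Lm : LM κ lam} {S : Scene Lm}
  {y : G75.YD κ lam} {t : TD y S} {N : ND (yY y).M (lam ⊕ lam)} {n : ℕ} {D : S.Dat}
  {F : Pr t N n D} {c : Cn S.L S.A} {d R : ℕ} {T₀ : ℝ} {q : F.Wi →₀ ℝ} {C : N.CD (yD y)}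
  {lv : C.C → ℝ} {b : Bool}

variable (c d q lv) in
/-- all normal forms -/
structure UU : Type where
  m : ℕ
  k : Fin (n + 1)
  i : S.L
  σ : Finset S.A
  s : S.A ⊕ Unit → ℝ
  x : Cf t D (m - k + 1 + n)
  ψ : ∀ l, (Ct F i l).H (Bi F i) x.m
  o : C.C
  nf : NF c d σ s q lv x ψ o

variable {a a' a'' : UU c d q lv}

variable (b a a') in
/-- the same half -/
structure Rl : Prop where
  o : a.o = a'.o
  σ : t.sd b a.σ = t.sd b a'.σ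
  s : ∀ z, t.Sd b z → a.s (.inl z) = a'.s (.inl z)
  L : LH t D b a.i a'.i
  i : b = true → a.i = a'.i
  e : ∃ u, HE (Gi F a.i a.s).F (Bi F a.i) (Oh t D b) (vi F a.i a'.i) a.x a'.x u ∧ (b = true →
    ∀ l, (Ct F a.i l).Eqv (Ct F a'.i l) (Bi F a.i) (Bi F a'.i) u (a.ψ l) (a'.ψ l))

theorem UU.ad (a : UU c d q lv) : Ad0 a.x (Bi F a.i) (Gi F a.i a.s) := ad0 a.nf.sol.toAdm

variable (H : Hp F c d R T₀)
include H

theorem x0_mem (a : UU c d q lv) (l : S.ls) : (Ct F a.i l).x0 ∈ Oh t D true :=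
  Cnt93.γ_mem (H.cut_rel a.nf.st l) 0 0

theorem Rl.refl (b : Bool) (a : UU c d q lv) : Rl b a a :=
  ⟨rfl, rfl, fun _ _ => rfl, .rfl, fun _ => rfl, _, he_refl ((D.Λ _).B_ok _ _) (H.gok a.nf.st)
    (H.clopen b).2 a.ad (vv_refl (sd_sub cA_eq b)), fun _ _ => Cnt93.eqv_refl a.ad.ok _⟩

theorem Rl.symm (h : Rl b a a') : Rl b a' a := by
  obtain ⟨u, e, f⟩ := h.e
  refine ⟨h.o.symm, h.σ.symm, fun z k => (h.s z k).symm, h.L.symm, fun k => (h.i k).symm, _,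
    he_symm (H.kt a.nf.st a'.nf.st h.L h.s).toKG a.ad a'.ad e (h.L.vv_symm (sd_sub cA_eq b)),
    fun k l => Lns95.eqv_symm a.ad.ok e.m (k ▸ x0_mem H a l) ?_ (f k l)⟩
  exact congrArg (fun i => (Ct F i l).x0) (h.i k).symm

theorem Rl.trans (h : Rl b a a') (h' : Rl b a' a'') : Rl b a a'' := by
  obtain ⟨u, e, f⟩ := h.e
  obtain ⟨u', e', f'⟩ := h'.e
  refine ⟨h.o.trans h'.o, h.σ.trans h'.σ, fun z k => (h.s z k).trans (h'.s z k), h.L.trans h'.L,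
    fun k => (h.i k).trans (h'.i k), _, he_trans (H.kt a.nf.st a'.nf.st h.L h.s).toKG a.ad a'.ad e
      (H.kt a'.nf.st a''.nf.st h'.L h'.s).toKG a''.ad e' rfl (h.L.vv_trans (sd_sub cA_eq b)),
    fun k l => Cnt93.eqv_trans (φ := id) ?_ (e'.m.J _ (k ▸ x0_mem H a' l)) a''.ad.ok.Jsq (f k l) (f' k l)⟩
  exact congrArg (fun i => (Ct F i l).x0) (h.i k).symm

/-- **gluing** -/
theorem glue (hq : ∀ ρ, q (F.wD ρ) ≠ 0) (a a' : UU c d q lv) (eo : a.o = a'.o) (hk : (a'.k : ℕ) ≤ a.m) :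
    ∃ z : UU c d q lv, (Rl false a z ∧ a.m = z.m ∧ zx a.x.z = zx z.x.z) ∧ Rl true a' z ∧ a'.k = z.k := by
  obtain ⟨m, k, i, σ, s, x, ψ, o, h⟩ := a
  obtain ⟨m', k', i', σ', s', x', ψ', o', h'⟩ := a'
  obtain rfl : o = o' := eo
  replace hk : (k' : ℕ) ≤ m := hk
  obtain ⟨σ₀, s₀, h₀, ⟨e1, e2⟩, e3, e4⟩ := H.st_glue h.st h'.st
  have L := le_orb (D := D) H.hy H.ht H.cn.ok h₀.ne0 h.st.ne0
  have cp : (Oh t D false)ᶜ = Oh t D true := H.compl false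
  have g := (H.kt h₀ h.st L e2).toKG
  have g' := (H.kt h₀ h'.st .rfl e4).toKG
  have A := ad0 h.sol.toAdm
  have A' := ad0 h'.sol.toAdm
  obtain ⟨c₀, a₀, ⟨u, e⟩, u', e'⟩ := exists_glue (H.clopen false) g (cp ▸ g') A A'
  rw [cp] at e'
  let x₀ : Cf t D (m - k' + 1 + n) := cw c₀ c₀.Φ (WithLp.toLp 2 fun j => zx x.z j)
  have A₀ : Ad0 x₀ (Bi F i') (Gi F i' s₀) := ⟨a₀.ok, a₀.conn, a₀.sm, a₀.pos⟩
  replace e : HE _ _ _ _ x₀ x u := e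
  replace e' : HE _ _ _ _ x₀ x' u' := e'
  have dd := fun j => h.dead H hq (j := j)
  have ez : zx x.z = zx x₀.z := funext fun j => by
    by_cases o : j < m - k' + 1 + n
    · exact (zx_coe x₀.z ⟨j, o⟩).symm
    · exact (dd j (by omega)).trans (Eq.symm (dif_neg o))
  have cs : ∀ z, z ∈ Oh t D false ∨ z ∈ Oh t D true := fun z => cp ▸ em _
  obtain ⟨B, hB⟩ := h.bdd H
  obtain ⟨B', hB'⟩ := h'.bdd H
  have bd : ∃ C, ∀ z, ‖x₀.Φ z‖ ≤ C := ⟨max B B', fun z => (cs z).elim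
    (fun j => (he_norm g A₀ A e j).ge.trans ((hB z).trans (le_max_left _ _)))
    fun j => (he_norm g' A₀ A' e' j).ge.trans ((hB' z).trans (le_max_right _ _))⟩
  have s2 := fun z k => (e2 z k).symm
  have s4 := fun z k => (e4 z k).symm
  have f := he_symm g A₀ A e (L.vv_symm (sd_sub cA_eq _))
  have f' := he_symm g' A₀ A' e' (LE.vv_symm (a := t.a) (sd_sub cA_eq _) .rfl)
  have P : HQ F i i' s s₀ false x x₀ _ := ⟨H.kt h.st h₀ L.symm s2, A, A₀, ⟨B, hB⟩, bd, f⟩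
  have P' : HQ F i' i' s' s₀ true x' x₀ _ := ⟨H.kt h'.st h₀ .rfl s4, A', A₀, ⟨B', hB'⟩, bd, f'⟩
  have eq : ∀ z, _ ∧ _ := fun z => (cs z).elim
    (fun j => P.sol (H.rt_L (q := q) h.st h₀ P s2 fun j => zx_coe x.z (Pr.eL m k j)) j ⟨h.sol.D z, h.sol.C z⟩)
    fun j => P'.sol (H.rt_R (q := q) h'.st h₀ P' s4) j ⟨h'.sol.D z, h'.sol.C z⟩
  choose ψ₀ p1 p2 using fun l => H.cut_tr h'.st h₀ P' s4 l (h'.cut l)
  have I1 := he_int P.g.toKG A A₀ f h.int.integrableOn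
  have I2 := he_int P'.g.toKG A' A₀ f' h'.int.integrableOn
  have I0 : Integrable _ _ := integrableOn_univ.1 (union_compl_self (Oh t D false) ▸ I1.union (cp ▸ I2))
  have K1 := he_kap P.g.toKG A A₀ f
  have K2 := he_kap P'.g.toKG A' A₀ f'
  have ms := (H.clopen false).2.measurableSet
  have AA := Dgr80.adm_crit (C.crit o)
  refine ⟨⟨m, k', i', σ₀, s₀, x₀, ψ₀, o, h₀, hk, ⟨⟨A₀.ok, A₀.conn, A₀.sm, A₀.pos,
    .inr ((zx_norm ez.symm).trans (h.sol.z.resolve_left (by omega)))⟩, fun z => (eq z).1,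
    fun z => (eq z).2, fun ρ => ?_⟩, p1, fun b hb => ?_, I0, ?_, h.nf, ?_⟩,
    ⟨⟨rfl, e1.symm, s2, L.symm, nofun, _, f, nofun⟩, rfl, ez⟩,
    ⟨rfl, e3.symm, s4, .rfl, fun _ => rfl, _, f', fun _ => p2⟩, rfl⟩
  · by_cases o : (k' : ℕ) ≤ ρ
    · rw [H.row_D h₀ o]
      exact mul_eq_zero_of_right _ (dd _ (by simp only [Fin.val_natAdd]; omega))
    · exact (H.row_R h'.st h₀ P' s4 ⟨ρ, not_le.1 o⟩).trans (h'.sol.S _)
  · cases b
    · exact lim_he (H.same h.st h₀ _) (fun _ j => (H.tgt h.st j).1) g A₀ A e rfl (H.fr h₀ h.st e2)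
        (fun _ j => (H.tgt h₀ ((H.same h.st h₀ _).ψ ▸ j)).2 _ L) AA (h.lim _ _)
    · exact lim_he (H.same h'.st h₀ _) (fun _ j => (H.tgt h'.st j).1) g' A₀ A' e' rfl
        (H.fr h₀ h'.st e4) (fun _ j => (H.tgt h₀ ((H.same h'.st h₀ _).ψ ▸ j)).2 _ .rfl) AA (h'.lim _ _)
  · have j1 := integral_add_compl ms I0
    have j2 := integral_add_compl ms h'.int
    have j3 := h'.lev
    have j4 : ((t.sd false σ).card : ℝ) = (t.sd false σ').card := congrArg _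
      (add_right_cancel ((H.card h.st.ne h'.st.ne).trans (H.card h'.st.ne h'.st.ne).symm))
    rw [cp] at j1 j2
    rw [K1, K2] at j1
    rw [Cfg.kap, Md.kap, kz, Nat.cast_sub h'.le] at j3
    rw [Cfg.kap, Md.kap, kz, Nat.cast_sub hk]
    linarith [h.lvl, h'.lvl]
  · rw [K1, e1]; exact h.lvl

variable (q lv) in
/-- the exchange structure -/
def exch (hq : ∀ ρ, q (F.wD ρ) ≠ 0) : Exch (UU c d q lv) C.C where
  m a := a.m
  n a := a.k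
  col a := a.o
  L := ⟨fun a a' => Rl false a a' ∧ a.m = a'.m ∧ zx a.x.z = zx a'.x.z,
    fun a => ⟨.refl H _ a, rfl, rfl⟩, fun h => ⟨h.1.symm H, h.2.1.symm, h.2.2.symm⟩,
    fun h k => ⟨h.1.trans H k.1, h.2.1.trans k.2.1, h.2.2.trans k.2.2⟩⟩
  R := ⟨fun a a' => Rl true a a' ∧ a.k = a'.k, fun a => ⟨.refl H _ a, rfl⟩,
    fun h => ⟨h.1.symm H, h.2.symm⟩, fun h k => ⟨h.1.trans H k.1, h.2.trans k.2⟩⟩
  P a b := b ≤ a
  Lm _ _ h := ⟨h.2.1, h.1.o⟩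
  Rn _ _ h := ⟨congrArg _ h.2, h.1.o⟩
  glue a a' e k := let ⟨z, h, h'⟩ := glue H hq a a' e k
    ⟨z, ⟨h.1.symm H, h.2.1.symm, h.2.2.symm⟩, h'.1.symm H, h'.2.symm⟩

/-- the class of a normal form -/
def toF (a : UU c d q lv) {m : ℕ} {k : Fin (n + 1)} (h : a.m = m ∧ (a.k : ℕ) = k) : F.Fcl c d m k q :=
  cast (by rw [← h.1, ← Fin.ext h.2])
    (⟨⟨(a.i, a.σ), a.nf.st.ne⟩, Quot.mk _ ⟨_, a.nf.ts H⟩⟩ : F.Fcl c d a.m a.k q)

theorem toF_iff (hq : ∀ ρ, q (F.wD ρ) ≠ 0) {m : ℕ} {k : Fin (n + 1)} (e : a.m = m ∧ (a.k : ℕ) = k)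
    (e' : a'.m = m ∧ (a'.k : ℕ) = k) :
    toF H a e = toF H a' e' ↔ (exch q lv H hq).L a a' ∧ (exch q lv H hq).R a a' := by
  obtain ⟨m₁, k₁, i, σ, s, x, ψ, o, h⟩ := a
  obtain ⟨m₂, k₂, i', σ', s', x', ψ', o', h'⟩ := a'
  obtain rfl : m₁ = m := e.1
  obtain rfl : k₁ = k := Fin.ext e.2
  obtain rfl : m₂ = m₁ := e'.1
  obtain rfl : k₂ = k₁ := Fin.ext e'.2
  simp only [toF, cast_eq]
  constructor
  · intro j
    obtain ⟨rfl, rfl⟩ : i = i' ∧ σ = σ' := Prod.mk.inj (congrArg (·.1.1) j)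
    obtain ⟨rfl, rfl, u, e1, f⟩ := h.iso H h' ((Job.equiv_TS (H.ok.J i h.st.ne0 _ _).1
      h.st.mem).eqvGen_iff.1 (Quot.eq.1 (eq_of_heq (Sigma.mk.inj j).2)))
    have r : ∀ b, Rl b (⟨_, _, i, σ, s, x, ψ, o, h⟩ : UU c d q lv) ⟨_, _, i, σ, s, x', ψ', o, h'⟩ :=
      fun b => ⟨rfl, rfl, fun _ _ => rfl, .rfl, fun _ => rfl, u, he_of (Lns95.ceq_congr
        (ceq_mono e1 (subset_univ _)) fun z hz => ⟨rfl, vv_refl (sd_sub cA_eq b) z hz⟩), fun _ => f⟩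
    exact ⟨⟨r _, rfl, congrArg zx (by simpa using e1.z.symm)⟩, r _, rfl⟩
  · rintro ⟨⟨j, -, ez⟩, j', -⟩
    obtain rfl : i = i' := j'.i rfl
    obtain rfl : o = o' := j.o
    obtain ⟨rfl, rfl⟩ := H.st_eq h.st h'.st fun b => by
      cases b
      exacts [⟨j.σ, j.s⟩, ⟨j'.σ, j'.s⟩]
    obtain ⟨u, e1, -⟩ := j.e
    obtain ⟨u', e2, f⟩ := j'.e
    have cp : (Oh t D false)ᶜ = Oh t D true := H.compl false
    have k : ∀ {b u}, HE (Gi F i s).F (Bi F i) (Oh t D b) (vi F i i) x x' u →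
        CEq (Gi F i s).F x x' (Oh t D b) id (PP (Bi F i)) (Bi F i).l u 1 := fun {b u} e =>
      Lns95.ceq_congr ⟨e.m, e.W, e.Φ, by simpa using (zx_inj ez).symm⟩
        fun z hz => ⟨rfl, (vv_refl (sd_sub cA_eq b) z hz).symm⟩
    refine congrArg _ (Quot.sound ⟨rfl, _, _, ceq_pw (H.clopen false) (k e1) (cp ▸ k e2), fun l =>
      eqv_congr (f rfl l) ?_⟩)
    classical
    exact piecewise_eq_of_notMem _ _ _ (cp.ge (x0_mem H ⟨_, _, _, _, _, _, _, _, h⟩ l.1))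

omit H in
/-- **LEAF F-EXC** -/
theorem excP : ExcP Lm := fun y S t N n D F C lv R d c T E q hy ht hc hF hq hE => by
  have H : Hp F c d R T := ⟨hy, ht, hc, hF⟩
  refine ⟨_, exch q lv H hq, fun e he => ⟨(hE e he).1, ⟨.ofBijective (Quot.lift
    (fun a => toF H a.1 a.2) fun a a' h => (toF_iff H hq _ _).2 h) ⟨?_, ?_⟩⟩⟩⟩
  · rintro ⟨a⟩ ⟨a'⟩ h
    exact Quot.sound ((toF_iff H hq _ _).1 h)
  · rintro ⟨⟨⟨i, σ⟩, h⟩, ⟨z, h1, h2⟩⟩
    obtain ⟨x, ψ, o, k, j⟩ := exists_nf H h (hE e he).1 h1 h2 ((hE e he).2 i σ h z h1 h2)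
    exact ⟨Quot.mk _ ⟨⟨_, _, _, _, _, _, _, _, k⟩, rfl, rfl⟩, congrArg (Sigma.mk _) (Quot.sound j)⟩

end Crest.Agent.X212.Exc36
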