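import Crest.Agent.X212.Exc36.Loc
import Crest.Agent.X212.Lns95.Sw
import Crest.Agent.X212.Wrd81.Trf
import Crest.Agent.X212.Dgr80.Chh
import Crest.Agent.X212.One97.Stab
import Crest.Agent.X212.Glc56.Gen

/-! F-EXC (helper36), part 2: equivalence of halves of configurations. -/

set_option autoImplicit false
set_option linter.unusedSectionVars false
noncomputable section
open scoped Manifold ContDiff Topology InnerProductSpace
open MeasureTheory Set Function Filter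

namespace Crest.Agent.X212.Exc36
open An Wz78 Nd18 Eqv71 Cyf70
open Wrd81 (TmIn)
open Lns95 (ceq_congr Same)
open Tmp64 (AdmOn admOn_univ)

variable {E : Type} [NormedAddCommGroup E] [NormedSpace ℝ E] [FiniteDimensional ℝ E]
  [MeasurableSpace E] [BorelSpace E]
  {HM : Type} [TopologicalSpace HM] {I : ModelWithCorners ℝ E HM} [I.Boundaryless]
  {M : Type} [TopologicalSpace M] [ChartedSpace HM M] [IsManifold I ∞ M]
  [MeasurableSpace M] [BorelSpace M] [T2Space M] [SecondCountableTopology M]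
  {lam : Type} [Fintype lam] {O Ω Ω' : Set M} {r r' r'' r₀ n n' n₀ : ℕ} {x : M}

section gen
variable {ι : Type} [Fintype ι] {B B' B'' : Base M ι lam} {G G' G'' G₁ : Geo I M ι lam}
  {F : Fr I M ι} {v v' v'' : M → En lam} {U : M → ι → ι → ℝ}
  {c : Cfg M ι lam r} {c' : Cfg M ι lam r'} {c'' : Cfg M ι lam r''}

/-- the rotation of the identity -/
abbrev PP (B : Base M ι lam) : M → ι → ι → ℝ := fun x b a => B.P b a x

/-- forget `z` -/
abbrev nz (c : Cfg M ι lam r) : Cfg M ι lam 0 := cw c c.Φ 0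

/-- equivalence of the fields over `O`, without phase -/
abbrev HE (F : Fr I M ι) (B : Base M ι lam) (O : Set M) (v : M → En lam) (c : Cfg M ι lam r)
    (c' : Cfg M ι lam r') (u : M → CL c.m.V c'.m.V) : Prop :=
  CEq F (nz c) (nz c') O id (PP B) v u 1

theorem ad_nz (a : Ad0 c B G) : Ad0 (nz c) B G := ⟨a.ok, a.conn, a.sm, a.pos⟩

theorem on_nz (a : Ad0 c B G) : AdmOn (nz c) B G O :=
  (admOn_univ.2 (show (nz c).Adm B G from ⟨a.ok, a.conn, a.sm, a.pos, .inl rfl⟩)).mono (subset_univ _)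

theorem he_of {d : Cfg M ι lam r} {u : M → CL c.m.V d.m.V}
    (e : CEq F c d O id (PP B) v u 1) : HE F B O v c d u := ⟨e.m, e.W, e.Φ, by simp⟩

/-- another geometry which agrees on `O` -/
theorem kg_tgt (k : KG B G B' G₁ O O id id U v) (hG : G'.OK B')
    (h : ∀ x ∈ O, ∀ a, G₁.F.e a x = G'.F.e a x ∧ G₁.a a x = G'.a a x)
    (hμ : G₁.F.μ.restrict O = G'.F.μ.restrict O) : KG B G B' G' O O id id U v :=
  ⟨{ k.toLG with
    hG' := hG
    rot := { k.rot with fr := fun b x hx => (h x hx b).1.symm.trans (k.rot.fr b x hx) }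
    par := fun x hx a => by
      rw [← k.par x hx a]
      simp only [Eqv71.pb, id, (h x hx _).2] }, k.inv, k.μ.trans hμ⟩

theorem he_refl (hB : B.OK I) (hG : G.OK B) (hO : IsOpen O) (a : Ad0 c B G)
    (h : ∀ x ∈ O, v x = B.l x) : HE G.F B O v c c c.m.p :=
  ceq_congr (ceq_refl hB hG (ad_nz a) hO) fun x hx => ⟨rfl, h x hx⟩

section two
variable (g : KG B G B' G' O O id id (PP B) v) (a : Ad0 c B G) (a' : Ad0 c' B' G')
  {u : M → CL c.m.V c'.m.V} (e : HE G.F B O v c c' u)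
include g a a' e

theorem he_symm (h : ∀ x ∈ O, v' x = trn (v x)) : HE G'.F B' O v' c' c fun x => trn (u x) := by
  have k := ceq_symm g.toLG g.inv (ad_nz a) (ad_nz a') e
  rw [inv_one] at k
  refine ceq_congr k fun x hx => ⟨funext₂ fun d b => ?_, h x hx⟩
  have b' : BE B x B' x _ _ := g.be x hx
  show B'.P d b x = B.P b d x
  rw [← b'.UU' d b, ← (g.hB.pr x).idem b d]
  exact Finset.sum_congr rfl fun k _ => (mul_comm _ _).trans (congrArg _ ((g.hB.pr x).symm d k))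

theorem he_trans (g' : KG B' G' B'' G'' O O id id (PP B') v') (a'' : Ad0 c'' B'' G'')
    {u' : M → CL c'.m.V c''.m.V} (e' : HE G'.F B' O v' c' c'' u') (hP : B'.P = B.P)
    (h : ∀ x ∈ O, v'' x = v' x ∘L v x) : HE G.F B O v'' c c'' fun x => u' x ∘L u x := by
  have k := ceq_trans g.toLG g'.toLG (mapsTo_id _) (ad_nz a) (ad_nz a') (ad_nz a'') e e'
  rw [mul_one] at k
  refine ceq_congr k fun x hx => ⟨funext₂ fun d b => ?_, h x hx⟩
  show B.P d b x = ∑ k, B'.P d k x * B.P k b x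
  rw [hP, (g.hB.pr x).idem d b]

theorem he_kd (hx : x ∈ O) : c'.m.kd B' G'.F c'.W x = c.m.kd B G.F c.W x :=
  (g.toLG.of_ceq (ad_nz a) (ad_nz a') e).kd hx

theorem he_kap : ∫ y in O, c'.m.kd B' G'.F c'.W y ∂G'.F.μ = ∫ y in O, c.m.kd B G.F c.W y ∂G.F.μ :=
  kap_on g (g.toLG.of_ceq (ad_nz a) (ad_nz a') e)

theorem he_int (h : IntegrableOn (c.m.kd B G.F c.W) O G.F.μ) :
    IntegrableOn (c'.m.kd B' G'.F c'.W) O G'.F.μ := by
  have k := g.μ
  rw [Measure.map_id] at k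
  rw [IntegrableOn, ← k]
  exact h.congr_fun (fun x hx => (he_kd g a a' e hx).symm) g.rot.opn.measurableSet

theorem he_norm (hx : x ∈ O) : ‖c'.Φ x‖ = ‖c.Φ x‖ :=
  have := ceq_norm g.toLG (ad_nz a) (ad_nz a') e hx
  this

end two

/-- a real phase is absorbed -/
theorem ceq_sgn {d : Cfg M ι lam r} {u : M → CL c.m.V d.m.V} {ζ : Circle} (hO : IsOpen O)
    (e : CEq F c d O id U v u ζ) {ε : ℝ} (h : (ζ : ℂ) = ε) :
    CEq F c d O id U v (fun x => ε • u x) 1 ∧ ∀ {k k' : Cut M lam} {a a'}, d.m.J * d.m.J = -1 →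
      k.Eqv k' B B' u a a' → k.Eqv k' B B' (fun x => ε • u x) a a' := by
  have h2 : ε * ε = 1 := by
    have := ζ.norm_coe
    rw [h, Complex.norm_real, Real.norm_eq_abs] at this
    rw [← abs_mul_abs_self, this, one_mul]
  refine ⟨⟨⟨(contMDiffOn_const (c := ε) (I' := 𝓘(ℝ, ℝ))).smul e.m.su, fun x hx => ?_, fun x hx => ?_, fun x hx => ?_,
    fun x hx b => ?_, fun x hx s => ?_⟩, fun x hx a => ?_, fun x hx => ?_, ?_⟩,
    fun hJ ⟨η, k⟩ => ⟨η * ζ, k.trans (congrArg (Cnt93.LU · _) ?_)⟩⟩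
  · simp only [trn, map_smulₛₗ, conj_trivial, ContinuousLinearMap.smul_comp,
      ContinuousLinearMap.comp_smul, smul_smul, h2, one_smul]
    exact e.m.uu x hx
  · simp only [trn, map_smulₛₗ, conj_trivial, ContinuousLinearMap.smul_comp,
      ContinuousLinearMap.comp_smul, smul_smul, h2, one_smul]
    exact e.m.uu' x hx
  · rw [ContinuousLinearMap.smul_comp, ContinuousLinearMap.comp_smul, e.m.J x hx]
  · rw [ContinuousLinearMap.smul_comp, ContinuousLinearMap.comp_smul, e.m.ρ x hx]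
  · rw [ContinuousLinearMap.smul_comp, ContinuousLinearMap.comp_smul, e.m.j x hx]
  · have := Sob92.dv_const_smul (e := F.e a) ε
      (((e.m.su x hx).contMDiffAt (hO.mem_nhds hx)).mdifferentiableAt (by simp))
    rw [Pre.D_def, show (fun x => ε • u x) = ε • u from rfl, this,
      ContinuousLinearMap.smul_comp, ContinuousLinearMap.comp_smul, ← smul_add, ← smul_sub]
    exact (congrArg _ (e.W x hx a)).trans (smul_zero _)
  · rw [e.Φ x hx, h]; simp [cs]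
  · rw [e.z, h, ← Complex.ofReal_pow, sq, h2]; simp
  · ext1 w
    show cs _ _ _ = cs _ _ _
    rw [Circle.coe_mul, ← cs_mul hJ, h]
    simp [cs, smul_smul, h2]

open Classical in
/-- gluing isomorphisms -/
theorem ceq_pw {d : Cfg M ι lam r} (hO : IsClopen O) {u u' : M → CL c.m.V d.m.V} {ζ : Circle}
    (e : CEq F c d O id U v u ζ) (e' : CEq F c d Oᶜ id U v u' ζ) :
    CEq F c d univ id U v (O.piecewise u u') ζ := by
  have k : ∀ x, ∃ O' w, O' ∈ 𝓝 x ∧ CEq F c d O' id U v w ζ ∧ O.piecewise u u' =ᶠ[𝓝 x] w := fun x => by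
    by_cases hx : x ∈ O
    · exact ⟨_, _, hO.isOpen.mem_nhds hx, e, eventually_of_mem (hO.isOpen.mem_nhds hx)
        fun y hy => piecewise_eq_of_mem _ _ _ hy⟩
    · exact ⟨_, _, hO.compl.isOpen.mem_nhds hx, e', eventually_of_mem (hO.compl.isOpen.mem_nhds hx)
        fun y hy => piecewise_eq_of_notMem _ _ _ hy⟩
  choose O' w h1 h2 h3 using k
  have m := fun x => mem_of_mem_nhds (h1 x)
  have p := fun x => (h3 x).eq_of_nhds
  exact ⟨⟨fun x _ => ((((h2 x).m.su x (m x)).contMDiffAt (h1 x)).congr_of_eventuallyEq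
      (h3 x)).contMDiffWithinAt, fun x _ => p x ▸ (h2 x).m.uu x (m x),
    fun x _ => p x ▸ (h2 x).m.uu' x (m x), fun x _ => p x ▸ (h2 x).m.J x (m x),
    fun x _ => p x ▸ (h2 x).m.ρ x (m x), fun x _ => p x ▸ (h2 x).m.j x (m x)⟩, fun x _ a => by
      rw [Pre.D, Sob92.dv_congr (h3 x), p x]; exact (h2 x).W x (m x) a,
    fun x _ => p x ▸ (h2 x).Φ x (m x), e.z⟩

theorem exists_pull (g : KG B G B' G' O O id id (PP B) v) (a : Ad0 c' B' G') :
    ∃ d : Cfg M ι lam 0, AdmOn d B G O ∧ ∀ (c : Cfg M ι lam 0) u, Tmp64.Eq0 G.F c d O u →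
      ∃ u, HE G.F B O v c c' u := by
  have k : GEq B G B' G' (.ofSet O g.rot.opn) (PP B) v := LG.geq g.toLG contMDiffOn_id g.μ
  refine ⟨pullC (Pj41.ph 1 (nz c')) _ (PP B) v, Glc56.admOn_pull k subset_rfl (mapsTo_id _) g.hB g.hG
    g.hB' g.hG' (Pj41.admOn_ph 1 (on_nz a)), fun c u e => ⟨u, ?_⟩⟩
  have := Glc56.ceq_of_eq0 k subset_rfl (mapsTo_id _) (on_nz a).ok e
  rw [inv_one] at this
  exact ⟨this.m, this.W, this.Φ, Subsingleton.elim _ _⟩

/-- **gluing two halves** -/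
theorem exists_glue (hO : IsClopen O) (g : KG B G B' G' O O id id (PP B) v)
    (g' : KG B G B'' G'' Oᶜ Oᶜ id id (PP B) v') (a : Ad0 c' B' G') (a' : Ad0 c'' B'' G'') :
    ∃ c : Cfg M ι lam 0, Ad0 c B G ∧ (∃ u, HE G.F B O v c c' u) ∧ ∃ u, HE G.F B Oᶜ v' c c'' u := by
  have : LocallyCompactSpace M := Manifold.locallyCompact_of_finiteDimensional (I := I)
  obtain ⟨d, h1, h2⟩ := exists_pull g a
  obtain ⟨d', h3, h4⟩ := exists_pull g' a'
  obtain ⟨c, a₀, a₁, -, k0, k1, k2, -⟩ := Glc56.glue3 (O₁ := O) (O₂ := O) (c₀ := d') g.hG hO.2 hO.2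
    ((union_self O).symm ▸ hO.1) ((union_self O).symm ▸ h3) h1 h1
    (Tmp64.Eq0.refl (h1.mono inter_subset_left))
  rw [union_self] at k1
  have k := fun O => (admOn_univ.2 k0).mono (subset_univ O)
  exact ⟨c, ad0 k0, h2 _ _ (k2.symm h1 (k _)), h4 _ _ (k1.symm h3 (k _))⟩

/-! ### related perturbations -/

variable (B O c c') in
/-- the field parts of two perturbations correspond over `O` -/
def RT (u : M → CL c.m.V c'.m.V) (τ : Pt M ι lam r n) (τ' : Pt M ι lam r' n') : Prop :=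
  ∀ x ∈ O, τ'.D c' x = u x (τ.D c x) ∧ τ'.C c' x = ridx (sq2 (PP B x)) (cj (u x)) (τ.C c x)

variable {u : M → CL c.m.V c'.m.V} {τ σ : Pt M ι lam r n} {τ' σ' : Pt M ι lam r' n'}

theorem RT.add (h : RT O B c c' u τ τ') (k : RT O B c c' u σ σ') :
    RT O B c c' u (τ.add σ) (τ'.add σ') := fun x hx =>
  ⟨by simp only [Pt.add, map_add, (h x hx).1, (k x hx).1],
    by simp only [Pt.add, map_add, (h x hx).2, (k x hx).2]⟩

theorem RT.smul (h : RT O B c c' u τ τ') (a : ℝ) : RT O B c c' u (τ.smul a) (τ'.smul a) :=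
  fun x hx => ⟨by simp only [Pt.smul, map_smul, (h x hx).1],
    by simp only [Pt.smul, map_smul, (h x hx).2]⟩

theorem rt_zero (h : ∀ x ∈ O, τ.D c x = 0 ∧ τ.C c x = 0) (h' : ∀ x ∈ O, τ'.D c' x = 0 ∧ τ'.C c' x = 0) :
    RT O B c c' u τ τ' := fun x hx =>
  ⟨by rw [(h x hx).1, (h' x hx).1, map_zero], by rw [(h x hx).2, (h' x hx).2, map_zero]⟩

theorem rt_van (h : Van0 O τ) (h' : Van0 O τ') : RT O B c c' u τ τ' :=
  rt_zero (fun x hx => ⟨h.D c x hx, h.C c x hx⟩) fun x hx => ⟨h'.D c' x hx, h'.C c' x hx⟩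

theorem rt_fsum {W : Type} {τ : W → Pt M ι lam r n} {τ' : W → Pt M ι lam r' n'}
    (h : ∀ w, RT O B c c' u (τ w) (τ' w)) (q : W →₀ ℝ) : RT O B c c' u (fsum τ q) (fsum τ' q) :=
  fun x hx => ⟨by simp only [fsum, Finsupp.sum, map_sum, map_smul, (h _ x hx).1],
    by simp only [fsum, Finsupp.sum, map_sum, map_smul, (h _ x hx).2]⟩

variable (B G B' G' O v c c' u) in
/-- two configurations with equivalent halves -/
structure HP : Prop where
  g : KT B G B' G' O O id id (PP B) v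
  a : Ad0 c B G
  a' : Ad0 c' B' G'
  b : ∃ C, ∀ x, ‖c.Φ x‖ ≤ C
  b' : ∃ C, ∀ x, ‖c'.Φ x‖ ≤ C
  e : HE G.F B O v c c' u

theorem lo_ind (hB : B.OK I) (hG : G.OK B) (hO : IsClopen O) (t : ∃ C, G.F.Tame C) (a : Ad0 c B G)
    (b : ∃ C, ∀ x, ‖c.Φ x‖ ≤ C) : LO O B G c (O.indicator c.Φ) :=
  have k : Sb I c.Φ := ⟨a.sm, b⟩
  ⟨hB, hG, hO, t, a, ⟨fun _ hx => indicator_of_mem hx _, k.ind hO.compl, (k.ind hO).ind hO.compl⟩,
    (k.ind hO).sm⟩

theorem ad_ind (h : LO O B G c (O.indicator c.Φ)) (z : EuclideanSpace ℂ (Fin r₀)) :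
    Ad0 (cw c (O.indicator c.Φ) z) B G :=
  ⟨h.ad.ok, h.ad.conn, h.sm, fun x => by
    by_cases hx : x ∈ O
    · simpa only [indicator_of_mem hx] using h.ad.pos x
    · simp only [indicator_of_notMem hx, map_zero]⟩

namespace HP
variable (h : HP O B B' G G' v c c' u)
include h

theorem lo : LO O B G c (O.indicator c.Φ) := lo_ind h.g.hB h.g.hG h.g.toKC.clopen h.g.tame h.a h.b

theorem lo' : LO O B' G' c' (O.indicator c'.Φ) :=
  lo_ind h.g.hB' h.g.hG' h.g.toKC.clopen h.g.tame' h.a' h.b'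

theorem cr (z : EuclideanSpace ℂ (Fin r₀)) : CR0 B G B' G' O O id (PP B) v
    (cw c (O.indicator c.Φ) z) (cw c' (O.indicator c'.Φ) z) u 1 :=
  ⟨ad_ind h.lo z, ad_ind h.lo' z, fun _ hx => indicator_of_notMem hx _,
    fun _ hx => indicator_of_notMem hx _, h.e.m, h.e.W, fun x hx => by
      simpa only [id, indicator_of_mem hx] using h.e.Φ x hx, by simp⟩

theorem sol (k : RT O B c c' u τ τ') (hx : x ∈ O) (e : c.eD G τ x = 0 ∧ c.eC B G τ x = 0) :
    c'.eD G' τ' x = 0 ∧ c'.eC B' G' τ' x = 0 := by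
  have a := ad_nz h.a
  have a' := ad_nz h.a'
  have h1 := ceq_dir h.g.toLG a a' h.e hx
  have h2 := ceq_p2F h.g.toLG a a' h.e hx
  have h3 := ceq_mu h.g.toLG a a' h.e hx
  simp only [id, Circle.coe_one, cs_one] at h1 h2 h3
  constructor
  · rw [Cfg.eD, h1, (k x hx).1, ← map_sub]
    exact (congrArg _ e.1).trans (map_zero _)
  · rw [Cfg.eC, h2, h3, (k x hx).2, ← map_sub, ← map_sub]
    exact (congrArg _ e.2).trans (map_zero _)

variable {f : Fin r₀ → Fin r} {f' : Fin r₀ → Fin r'} (hz : ∀ j, c'.z (f' j) = c.z (f j))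
  (hΩ : Ω ⊆ O) (hΩ' : Ω' ⊆ O)
include hz hΩ hΩ'

theorem tm (g : Fin n₀ → Fin n) (g' : Fin n₀ → Fin n') {T T' : Tm M lam r₀ n₀} (i : TmIn I Ω T)
    (i' : TmIn I Ω' T') (R : TmR O id v T T') :
    RT O B c c' u (An.tmP B G.F (T.mp f g)) (An.tmP B' G'.F (T'.mp f' g')) ∧ (Injective g → Injective g' →
      ∀ j, c'.tS G'.F (T'.mp f' g') (g' j) = c.tS G.F (T.mp f g) (g j)) := by
  let z : EuclideanSpace ℂ (Fin r₀) := WithLp.toLp 2 fun j => c.z (f j)
  have e : ∀ j, z j = c.z (f j) := fun _ => rfl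
  have e' : ∀ j, z j = c'.z (f' j) := fun j => (hz j).symm
  have p := tm_rel0 h.g R i i'
  refine ⟨fun x hx => ⟨?_, ?_⟩, fun k k' j => ?_⟩
  · exact (h.lo'.tD hΩ' e' g' i' hx).symm.trans ((p.D (h.cr z) x hx).trans ((cs_one _ _).trans
      (congrArg _ (h.lo.tD hΩ e g i hx))))
  · exact (h.lo'.tC hΩ' e' g' i' hx).symm.trans ((p.C (h.cr z) x hx).trans
      (congrArg _ (h.lo.tC hΩ e g i hx)))
  · rw [← h.lo'.tS hΩ' e' g' i' k', ← h.lo.tS hΩ e g i k]
    exact (p.S (h.cr z) j).trans (by simp [Eqv71.tmP])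

set_option maxRecDepth 4000 in
theorem tc {k k' : Cut M lam} (ok : k.OK B G.F) (ok' : k'.OK B' G'.F) (R : k.Rel k' O id v)
    (hx : k'.x0 ∈ O) {t t' : Tc M lam r₀} (i : XiIn I Ω t.ξ) (i' : XiIn I Ω' t'.ξ)
    (T : Cnt93.TcR O id v t t') (η : Circle) (a : k.H B c.m) :
    c'.tc B' G'.F k' ⟨t'.m, t'.n, t'.w, t'.ξ.mp f'⟩ (Cnt93.Rh k k' B B' u η a) =
      Cnt93.Rh k k' B B' u η (c.tc B G.F k ⟨t.m, t.n, t.w, t.ξ.mp f⟩ a) := by
  let z : EuclideanSpace ℂ (Fin r₀) := WithLp.toLp 2 fun j => c.z (f j)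
  have h1 := h.lo'.tc (z := z) hΩ' (fun j => (hz j).symm) k' hx i'
  have h2 := h.lo.tc (z := z) hΩ (fun _ => rfl) k (Cnt93.γ_mem R 0 0) i
  have h3 := (h.cr z).tc h.g η ok ok' R T i i' a
  exact (DFunLike.congr_fun h1 _).symm.trans (h3.trans (congrArg _ (DFunLike.congr_fun h2 a)))

end HP
end gen

/-! ### necks -/

variable {E3 : Type} [NormedAddCommGroup E3] [NormedSpace ℝ E3] [FiniteDimensional ℝ E3]
  [MeasurableSpace E3] [BorelSpace E3]
  {H3 : Type} [TopologicalSpace H3] {I3 : ModelWithCorners ℝ E3 H3} [I3.Boundaryless]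
  {Y : Type} [TopologicalSpace Y] [ChartedSpace H3 Y] [IsManifold I3 ∞ Y] [T2Space Y]
  [MeasurableSpace Y] [BorelSpace Y] [SecondCountableTopology Y] [CompactSpace Y]
  {κ : Type} [Fintype κ] {D : YD I3 Y κ lam} {B B' : Base M (Option κ) lam}
  {G G' : Geo I M (Option κ) lam} {c : Cfg M (Option κ) lam r} {c' : Cfg M (Option κ) lam r'}
  {K : Nk D B G} {K' : Nk D B' G'} {N : ND Y lam} {v : M → En lam} {u : M → CL c.m.V c'.m.V}
  {β β' : YC Y κ lam} {ζ ζ' : Circle} {l : Filter ℝ}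

theorem lim_nz : K.Lim (nz c) β ζ l ↔ K.Lim c β ζ l :=
  exists_congr fun _ => forall₃_congr fun _ _ _ => exists_congr fun _ => and_congr_right fun _ =>
    and_congr_right fun _ => ⟨fun h => ⟨h.op, h.m, h.A, h.P⟩, fun h => ⟨h.op, h.m, h.A, h.P⟩⟩

section same
variable (s : Same K K') (hK : K.ψ.target ⊆ O)
include s hK

theorem nkR_of : NkR O O id K K' 0 := by
  have e : K'.cut = K.cut := by unfold Nk.cut; rw [s.p, s.q]
  have χ : K'.χ = K.χ := by unfold Nk.χ; rw [e, s.tm]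
  exact ⟨fun x _ => by rw [add_zero, Nk.τ, Nk.τ, s.p, s.q, s.tm, id], fun t => by rw [add_zero, e],
    fun x _ => congrFun χ x, fun x _ _ => by rw [s.ψ, id], fun x hx => χ_off _ fun k => hx (hK k),
    fun x hx => χ_off _ fun k => hx (hK (s.ψ ▸ k)), fun t => by rw [add_zero, e]⟩

variable (h : HP O B B' G G' v c c' u) (hN : N.OK D)
include h hN

theorem HP.q1 (hv : ∀ x ∈ K.ψ.target, v x = B.l x) :
    RT O B c c' u (N.q1 K : Pt _ _ _ r n) (N.q1 K' : Pt _ _ _ r' n') := fun x hx => by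
  have e := nkR_of s hK
  have p := e.q1_rel0 (r := 0) (n := 0) h.g.toKC hN h.g.tame.choose_spec h.g.tame'.choose_spec
    fun j y hy => by
      rw [e.ext _ hy]
      by_cases k : y ∈ K.ψ.target
      · rw [hv y k, trn_l h.g.hB]
      · simp only [Nk.ext, χ_off K k, zero_smul, map_zero]
  have a := h.lo.q1 (n := n) (n' := 0) (z := (0 : EuclideanSpace ℂ (Fin 0))) K hK hN hx
  have a' := h.lo'.q1 (n := n') (n' := 0) (z := (0 : EuclideanSpace ℂ (Fin 0))) K' (s.ψ ▸ hK) hN hx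
  exact ⟨a'.1.symm.trans ((p.D (h.cr 0) x hx).trans ((cs_one _ _).trans (congrArg _ a.1))),
    a'.2.symm.trans ((p.C (h.cr 0) x hx).trans (congrArg _ a.2))⟩

theorem HP.q2 {T : YT Y} (hT : T.OK I3) :
    RT O B c c' u (N.q2 K T : Pt _ _ _ r n) (N.q2 K' T : Pt _ _ _ r' n') := fun x hx => by
  have p := (nkR_of s hK).q2_rel0 (r := 0) (n := 0) h.g.toKC hN hT
  have a := h.lo.q2 (N := N) (n := n) (n' := 0) (z := (0 : EuclideanSpace ℂ (Fin 0))) K hK hT hx
  have a' := h.lo'.q2 (N := N) (n := n') (n' := 0) (z := (0 : EuclideanSpace ℂ (Fin 0))) K'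
    (s.ψ ▸ hK) hT hx
  exact ⟨a'.1.symm.trans ((p.D (h.cr 0) x hx).trans ((cs_one _ _).trans (congrArg _ a.1))),
    a'.2.symm.trans ((p.C (h.cr 0) x hx).trans (congrArg _ a.2))⟩

end same

/-- transfer of limits -/
theorem lim_he (s : Same K' K) (hK : K'.ψ.target ⊆ O) (g : KG B G B' G' O O id id (PP B) v)
    (a : Ad0 c B G) (a' : Ad0 c' B' G') (e : HE G.F B O v c c' u) (hP : B'.P = B.P)
    (hF : ∀ x ∈ O, ∀ a, G'.F.e a x = G.F.e a x) (hv : ∀ x ∈ K'.ψ.target, v x = B.l x)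
    (hβ : D.Adm β) (H : K'.Lim c' β ζ l) : K.Lim c β ζ l := by
  have t : K'.tm ⁻¹' K'.J = K'.ψ.target := K'.tgt.symm
  have o := K'.ψ.open_target
  have e' := Wrd81.ceq_on (Wrd81.ceq_mono e hK) fun x hx a => (hF x (hK hx) a).symm
  obtain ⟨_, k⟩ := id H
  obtain ⟨S, h1, h2, h3⟩ := k 0 1 one_pos
  refine lim_nz.1 (s.lim (g := u) hβ (ad_nz a') (ad_nz a) isOpen_Jv (mem_of_superset h1 h2) ?_ ?_ ?_
    (lim_nz.2 H)) <;> rw [t]
  · refine ⟨fun x hx => (e'.m.su x hx).contMDiffAt (o.mem_nhds hx),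
      fun x hx => Pj41.CIso.of_prj (a.ok.pidem x) (by rw [Pj41.ad_trn]; exact e'.m.uu x hx)
        (by rw [Pj41.ad_trn]; exact e'.m.uu' x hx), fun x hx => (e'.m.J x hx).symm,
      fun x hx b => ?_, fun x hx s' => ?_⟩
    · have := e'.m.ρ x hx b
      rwa [show ∑ a, PP B x b a • c.m.ρ a x = c.m.ρ b x from (a.ok.cl x).proj b] at this
    · have := e'.m.j x hx s'
      rwa [id, hv x hx, (s.line.2 x hx).1, a'.ok.jl] at this
  · exact (Pj41.par0_iff (B := B) (hP ▸ (Pj41.IsConn.on a'.conn _).proj' g.hB')).2 e'.W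
  · exact fun x hx => (e'.Φ x hx).trans (cs_one _ _)

/-- uniqueness of limits -/
theorem lim_uniq (hl : Bki64.IsEnd l) [l.NeBot] (a : Ad0 c B G) (hβ : D.Adm β) (hβ' : D.Adm β')
    (H : K.Lim c β ζ l) (H' : K.Lim c β' ζ' l) : ∃ g, Bki64.Stb D β β' g (ζ' / ζ) := by
  obtain ⟨w, H⟩ := lim_nz.2 H
  obtain ⟨w', H'⟩ := lim_nz.2 H'
  have A := admOn_pb K a subset_rfl
  obtain ⟨S, h1, h2, -⟩ := H 0 1 one_pos
  refine Bki64.stb_of_eta hβ hβ' one_pos fun η hη => ?_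
  obtain ⟨s, k1, k2, k3⟩ := ((hl.ev h1 1).and ((Bki64.cn_of_lim hβ hl A H hη 1).and
    (Bki64.cn_of_lim hβ' hl A H' hη 1))).exists
  exact ⟨0, _, s, w, w', ζ, ζ', A.mono (prod_mono_right (Ioo_subset_Icc_self.trans (k1.trans h2))),
    k2, k3, by simp [hη.le], by simp [hη.le]⟩

/-- the phase of a self-equivalence of a free point is real -/
theorem stb_real [ConnectedSpace Y] (hD : D.OK) (hβ : D.Adm β) (hf : ¬D.Fx β) {g}
    (h : Bki64.Stb D β β g ζ) : ∃ ε : ℝ, (ζ : ℂ) = ε :=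
  (One97.stab D hD ‹_› β hβ hf 0 1 (fun x => g x.1) ζ one_pos (Wrd81.ceq_mono
    ⟨h.iso.mEq (Pj41.OK.on hβ.adm.ok _) (Pj41.OK.on hβ.adm.ok _),
    (Pj41.par0_iff ((Pj41.IsConn.on hβ.adm.conn _).proj' hD.B)).1 fun x _ a => h.par a x,
    fun x _ => (h.Φ x.1).symm, Subsingleton.elim _ _⟩ (subset_univ _))).imp fun _ k => k.1

end Crest.Agent.X212.Exc36
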