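import Crest.Agent.X212.Exc36.Gen
import Crest.Agent.X212.Ins26.On
import Crest.Agent.X212.Fex7.Job
import Crest.Agent.X212.Fex7.Iso
import Crest.Agent.X212.Lns95.Van

/-! F-EXC (helper36), part 3: the two halves of the broken manifold. -/

set_option autoImplicit false
set_option linter.unusedSectionVars false
noncomputable section
open scoped Manifold ContDiff Topology Matrix
open Set Function Filter

namespace Crest.Agent.X212.Exc36
open An M G75 Eqv71 Nd18 Ins26 Jb7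
open Line51 (rl)
open Ins26.On (uu uu_φ)
open Lns95 (Same)
open Br55 (CN)

section wld
variable {X : Mf 4} {A κ lam : Type} [Fintype A] [Fintype κ] [Fintype lam] [DecidableEq lam]
  {M : Mark X A κ} {W : World M} {N N' N'' : ML M lam} {Λ : Lns W N} {Λ' : Lns W N'}
  {Λ'' : Lns W N''} {m c : M.Cl} {V : Set X.M} {p p' : Prm A} {a : A}

variable (Λ Λ' a V) in
/-- two lines are equal on `V` -/
structure LE : Prop where
  p : ∀ x ∈ V, N'.p x = N.p x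
  m : ∀ q, |q.2| ≤ 3 → (M.bn a).j q ∈ V → N'.m a q = N.m a q
  a0 : ∀ p : Prm A, p.2 ∈ M.sys.Par → p.2 a ≠ 0 → ∀ x ∈ V, Λ'.a0 p x = Λ.a0 p x

theorem LE.rfl : LE Λ Λ V a := ⟨fun _ _ => .refl _, fun _ _ _ => .refl _, fun _ _ _ _ _ => .refl _⟩

theorem LE.symm (h : LE Λ Λ' V a) : LE Λ' Λ V a := ⟨fun x hx => (h.p x hx).symm,
  fun q k hq => (h.m q k hq).symm, fun p k k' x hx => (h.a0 p k k' x hx).symm⟩

theorem LE.trans (h : LE Λ Λ' V a) (h' : LE Λ' Λ'' V a) : LE Λ Λ'' V a :=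
  ⟨fun x hx => (h'.p x hx).trans (h.p x hx), fun q k hq => (h'.m q k hq).trans (h.m q k hq),
    fun p k k' x hx => (h'.a0 p k k' x hx).trans (h.a0 p k k' x hx)⟩

variable (Λ Λ' m c) in
/-- the isometry of the lines -/
abbrev vv : (W.Z c).M → En (lam ⊕ lam) := fun z => rl (uu Λ Λ' m c z)

theorem agr (hV : IsOpen V) (hU : V ⊆ (M.sys.cores c.1)ᶜ) (ho : p ∈ M.O c.1) (ho' : p' ∈ M.O c.1)
    (e : p'.1 = p.1) (h : ∀ a, ∀ x ∈ V, x ∈ range (M.bn a).j → p.2 a = p'.2 a) :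
    Cht98.Agr (Λ.G m c p') (Λ.G m c p) (W.φ c '' V) := by
  have k0 : p' = (p.1, p'.2) := Prod.ext e rfl
  have H : ∀ z ∈ W.φ c '' V, ∀ i, (Λ.G m c p).F.e i z = (Λ.G m c p').F.e i z ∧
      (Λ.G m c p).a i z = (Λ.G m c p').a i z := by
    rintro _ ⟨x, hx, rfl⟩ i
    have k : ∀ a ∈ M.sys.fr c.1, W.φ c x ∈ W.φ c '' (M.bn a).slab (Icc (-2) 2) →
        p.2 a = p'.2 a := fun a ha ⟨y, h1, h2⟩ => by
      have h3 := (M.bn a).slab_subset _ h1
      obtain rfl := (W.φ c).injOn ((W.mem_src c).2 (Mark.fr_not_mem ha h3)) ((W.mem_src c).2 (hU hx)) h2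
      exact h a _ hx h3
    have k1 : (Λ.G m c p).F.e i (W.φ c x) = (Λ.G m c p').F.e i (W.φ c x) := by
      refine (congrFun (congrFun ((W.L m c).F_e (Mark.mem_Ω _ ho)) i) _).trans
        (Eq.trans ?_ (congrFun (congrFun ((W.L m c).F_e (Mark.mem_Ω _ ho')) i) _).symm)
      rw [k0]
      exact congrFun (W.loc m c _ _ _ _ k) i
    have k2 : ((Λ.Λ m c).ln p).cm (W.Z c).I (W.φ c x) = ((Λ.Λ m c).ln p').cm (W.Z c).I (W.φ c x) :=
      Line51.cm_congr (.refl _ _) (by rw [k0]; exact Λ.loc m c _ _ _ _ k)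
    exact ⟨k1, congrArg Line51.rl ((DFunLike.congr_fun k2 _).trans (congrArg _ k1))⟩
  exact ⟨(W.φ c).toOpenPartialHomeomorph.isOpen_image_of_subset_source hV
    fun x hx => (W.mem_src c).2 (hU hx), fun x hx i => (H x hx i).1, fun x hx i => (H x hx i).2⟩

variable (hU : V ⊆ (M.sys.cores c.1)ᶜ)
include hU

theorem vv_of {x : X.M} (hx : x ∈ V) (e : Λ'.v m c x = Λ.v m c x) :
    vv Λ Λ' m c (W.φ c x) = (Λ.B m c).l (W.φ c x) := by
  have b := (Λ.uni m c).iso x ((W.mem_src c).2 (hU hx))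
  rw [vv, uu_φ Λ Λ' m (hU hx), tw, id, e, b.idem, b.tgt]
  rfl

theorem vv_refl : ∀ z ∈ W.φ c '' V, vv Λ Λ m c z = (Λ.B m c).l z := by
  rintro _ ⟨x, hx, rfl⟩
  exact vv_of hU hx rfl

variable (h : LE Λ Λ' V a)
include h

theorem LE.vv_symm : ∀ z ∈ W.φ c '' V, vv Λ' Λ m c z = trn (vv Λ Λ' m c z) := by
  rintro _ ⟨x, hx, rfl⟩
  rw [vv, vv, uu_φ _ _ m (hU hx), uu_φ _ _ m (hU hx), ← Line51.rl_ct, tw, tw, id, h.p x hx,
    Matrix.conjTranspose_mul, Matrix.conjTranspose_mul, Matrix.conjTranspose_conjTranspose,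
    (N.ok.prj x trivial).herm, Matrix.mul_assoc]

theorem LE.vv_trans : ∀ z ∈ W.φ c '' V, vv Λ Λ'' m c z = vv Λ' Λ'' m c z ∘L vv Λ Λ' m c z := by
  rintro _ ⟨x, hx, rfl⟩
  have b := ((Λ'.uni m c).iso x ((W.mem_src c).2 (hU hx))).src
  have e := (N.ok.prj x trivial).idem
  rw [vv, vv, vv, uu_φ _ _ m (hU hx), uu_φ _ _ m (hU hx), uu_φ _ _ m (hU hx), ← Line51.rl_comp,
    tw, tw, tw, id, h.p x hx]
  rw [h.p x hx] at b
  simp only [Matrix.mul_assoc]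
  rw [← Matrix.mul_assoc _ (Λ'.v m c x), b, ← Matrix.mul_assoc (N.p x) (N.p x), e,
    ← Matrix.mul_assoc (N.p x) (N.p x), e]

theorem LE.vv_lit {q : (M.bn a).Y.M × ℝ} (hq : (M.bn a).j q ∈ V) (hl : M.Lit m.1 c.1 a q.2) :
    vv Λ Λ' m c (W.nj c a q) = (Λ.B m c).l (W.nj c a q) :=
  vv_of hU hq (by rw [Λ.lit _ _ _ _ hl, Λ'.lit _ _ _ _ hl, h.m q (hl.1.trans (by norm_num)) hq])

omit hU in
theorem LE.iso (hV : IsOpen V) (hp : p.2 ∈ M.sys.Par) (ha : p.2 a ≠ 0) :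
    Line51.Iso X.I ⟨N.p, Λ.a0 p⟩ ⟨N'.p, Λ'.a0 p⟩ N.p V :=
  (Line51.Iso.refl hV ((Λ.ok0 p).mono (subset_univ _))).of_eq (fun _ _ => .refl _) (fun _ _ => .refl _)
    h.p (h.a0 p hp ha)

theorem LE.kg (hV : IsOpen V) (ho : p ∈ M.O c.1)
    (ho' : p' ∈ M.O c.1) (hp : p ∈ M.Br c.1) (ha : p.2 a ≠ 0) (e : p.1 = p'.1)
    (k : ∀ a, ∀ x ∈ V, x ∈ range (M.bn a).j → p'.2 a = p.2 a) :
    KG (Λ.B m c) (Λ.G m c p) (Λ'.B m c) (Λ'.G m c p') (W.φ c '' V) (W.φ c '' V) id id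
      (PP (Λ.B m c)) (vv Λ Λ' m c) :=
  have g := agr (Λ := Λ') (m := m) hV hU ho' ho e k
  kg_tgt (On.kg Λ Λ' m hU hp ho hV (h.iso hV hp.1 ha)) (Λ'.G_ok _ ho')
    (fun x hx a => ⟨(g.e x hx a).symm, (g.a x hx a).symm⟩)
    (g.μ (Lay.F_vol _ _) (Lay.F_vol _ _)).symm

omit hU h

/-! ### one broken wall -/

variable (W c a) in
/-- the half on the side `b` -/
abbrev Ob (b : Bool) : Set (W.Z c).M := W.φ c '' (M.sys.w a).sd b

variable (hc : c.1 = {a}) {b : Bool}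
include hc

theorem sd_sub (b : Bool) : (M.sys.w a).sd b ⊆ (M.sys.cores c.1)ᶜ := fun x hx k => by
  rw [hc, Sys.cores, biUnion_singleton] at k
  exact k b hx

variable (hn : ¬M.pin a)
include hn

theorem ob_compl (b : Bool) : (Ob W c a b)ᶜ = Ob W c a (!b) := by
  have s := fun b x (h : x ∈ (M.sys.w a).sd b) => (W.mem_src c).2 (sd_sub hc b h)
  refine Subset.antisymm (fun z hz => ?_) ?_
  · obtain ⟨x, hx, rfl⟩ := Met55.exists_src (z := z) ((W.tgt c).ge fun a ha k => by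
      rw [hc] at ha
      exact (hn (ha ▸ k)).elim)
    have := (W.mem_src c).1 hx
    rw [hc, Sys.cores, biUnion_singleton] at this
    exact ⟨x, (((M.sys.w a).mem_cases b x).resolve_left fun k => hz ⟨x, k, rfl⟩).resolve_left this, rfl⟩
  · rintro _ ⟨x, hx, rfl⟩ ⟨y, hy, e⟩
    obtain rfl := (W.φ c).injOn (s _ _ hy) (s _ _ hx) e
    exact Wall.not_mem_sd _ hy hx

theorem ob_clopen (b : Bool) : IsClopen (Ob W c a b) :=
  have o := fun b => (W.φ c).toOpenPartialHomeomorph.isOpen_image_of_subset_source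
    ((M.sys.w a).op_sd b) fun _ h => (W.mem_src c).2 (sd_sub hc b h)
  ⟨⟨ob_compl hc hn b ▸ o _⟩, o b⟩

theorem un_eq (b : Bool) :
    W.un c {π | M.sys.Piece c.1 π ∧ M.sys.U π ⊆ (M.sys.w a).sd b} = Ob W c a b := by
  have := M.con
  refine Subset.antisymm (fun z hz => ?_) ?_
  · obtain ⟨π, h, k | ⟨x, e, k, k', -⟩⟩ := mem_un.1 hz
    · exact image_mono h.2 k
    · have := h.1.bd_subset (Sys.mem_bd_of k')
      rw [hc] at this
      exact (hn (this ▸ k)).elim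
  · rintro _ ⟨x, hx, rfl⟩
    obtain ⟨π, h, k⟩ := M.sys.exists_piece c.2 (sd_sub hc b hx)
    obtain ⟨b', e⟩ := h.side c.2 (hc.ge rfl)
    exact mem_un.2 ⟨π, ⟨h, Wall.sd_inj _ (e k) hx ▸ e⟩, .inl ⟨x, k, rfl⟩⟩

omit hc hn

theorem nk_tgt {Wi : Type} {S : Xs Wi κ lam} {g : S.Y.M ≃ₘ^∞⟮S.Y.I, (M.bn a).Y.I⟯ (M.bn a).Y.M}
    {K : Nk S.D (Λ.B m c) (Λ.G m c p)} (h : Act m c a (some b) p) (k : IsNk a (some b) g K) {z}
    (hz : z ∈ K.ψ.target) :
    ∃ q, (M.bn a).j q ∈ (M.sys.w a).sd b ∧ M.Lit m.1 c.1 a q.2 ∧ z = W.nj c a q := by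
  rw [Cht98.isNk_target h k] at hz
  have h1 := abs_lt.2 hz.1
  obtain ⟨y, -, e⟩ := Cht98.exists_of_hZ W.toCaps (.inl ⟨h.2.2.2, h.1⟩) (h1.trans (by norm_num))
  have h2 := hz.2.resolve_left (h.2.1.2 h.2.2.2).ge.not_gt
  have h3 : 0 < pm b * Cht98.hZ W.toCaps c a z := by cases b <;> simpa [pm] using h2
  exact ⟨_, (M.bn a).j_mem_sd.2 h3, ⟨h1.le, .inl ⟨h.2.2.2, fun k => h3.ne' (mul_eq_zero_of_right _ k)⟩⟩, e.symm⟩

theorem pe_congr {α β : Type} [Nonempty α] {f f' : α → β} {S S' : Set α} {T T' : Set β} (e : f' = f)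
    (e' : S' = S) (e'' : T' = T) (h k) :
    BijOn.toPartialEquiv f' S' T' h = BijOn.toPartialEquiv f S T k := by
  subst e e' e''; rfl

theorem nk_same {Wi : Type} {S : Xs Wi κ lam} {g : S.Y.M ≃ₘ^∞⟮S.Y.I, (M.bn a).Y.I⟯ (M.bn a).Y.M}
    (hS : S.C.OK) (hg : ¬M.pin a → Cy.Iso S.C (N.cy a) g) (hg' : ¬M.pin a → Cy.Iso S.C (N'.cy a) g)
    (h : Act m c a (some b) p) (h' : Act m c a (some b) p') :
    Same (Ink3.nk Λ hS hg h) (Ink3.nk Λ' hS hg' h') := by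
  have e : Mark.tv c.1 p'.2 a = Mark.tv c.1 p.2 a :=
    (Mark.tv_mem h.2.2.2 _).trans (Mark.tv_mem h.2.2.2 _).symm
  have : Nonempty S.Y.M := ⟨g.symm (Classical.arbitrary _)⟩
  exact ⟨rfl, congrArg (Cht98.np · b) e, congrArg (Cht98.nq · b) e,
    OpenPartialHomeomorph.toPartialEquiv_injective <| pe_congr (by rw [e])
      (congrArg (fun t => univ ×ˢ Jv (Cht98.np t b) (Cht98.nq t b)) e) (by rw [e])
      ((Ink3.act_ok h').bijOn g _ b) ((Ink3.act_ok h).bijOn g _ b),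
    congrArg (fun t z => Cht98.tmf t b (Cht98.hZ W.toCaps c a z)) e⟩

end wld

theorem dsum_two {M ι lam K : Type} [Fintype ι] [Fintype lam] {r n : ℕ} [Fintype K] {p : K → Prop}
    (τ : ∀ i, p i → Pt M ι lam r n) {i j : K} (hi : p i) (hj : p j) (ne : i ≠ j)
    (h : ∀ k hk, k ≠ i → k ≠ j → τ k hk = Ink3.pz) : Pt.dsum p τ = (τ i hi).add (τ j hj) := by
  refine Ink3.pt_ext (fun c x => ?_) (fun c x => ?_) fun c x => ?_ <;>
    refine (Fintype.sum_eq_add i j ne fun k hk => ?_).trans (by rw [dif_pos hi, dif_pos hj]; rfl) <;>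
    split_ifs with e <;> [rw [h k e hk.1 hk.2]; skip; rw [h k e hk.1 hk.2]; skip;
      rw [h k e hk.1 hk.2]; skip] <;> rfl

/-! ### the scene -/

variable {κ lam : Type} [Fintype κ] [Fintype lam] [DecidableEq lam] {Lm : LM κ lam} {S : Scene Lm}
  {y : G75.YD κ lam} {t : TD y S} {N : ND (yY y).M (lam ⊕ lam)} {n : ℕ} {D : S.Dat}
  {F : Pr t N n D} {c : Cn S.L S.A} {d R : ℕ} {T₀ : ℝ} {i i' : S.L} {σ σ' : Finset S.A}
  {s s' : S.A ⊕ Unit → ℝ} {b : Bool}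

theorem cA_eq : (cA t).1 = {t.a} := Set.ext fun _ => Option.some_inj.trans eq_comm

open Classical in
theorem le_fl (hy : y.OK) (ht : t.OK R c) (hS : S.OK) {l : S.A} (hl : l ∈ S.ls) (i : S.L) :
    LE (D.Λ i) (D.Λ (S.fl l i)) ((S.M.sys.w t.a).sd false) t.a := by
  have o := hS.out l hl i
  have V := Fex7.left_out hy ht hS hl
  have a := ((hS.fz _ ht.fz.1).2.2 l hl).1
  have e : ∀ x ∈ (S.M.sys.w t.a).sd false, (S.N (S.fl l i)).p x = (S.N i).p x := fun x hx =>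
    have k := (S.N i).ok.prj x trivial
    (o.uni.iso x (.inl (V hx))).tgt.symm.trans (by rw [k.herm, k.idem])
  refine ⟨e, fun q k hq => ?_, fun p hp ha x hx => ?_⟩
  · have := o.m ⟨t.a, a.trans subset_union_left⟩ q k (.inl (V hq))
    exact ((((S.N (S.fl l i)).um t.a).iso q k).idem.symm.trans (congrArg _ (e _ hq))).trans this
  · have e : ∀ β : S.X.M → _, Dr59.pm S.X.I S.X.I id β x = β x := fun β => congrFun (Dr59.pm_id β) x
    have w : ∀ z, p.2 z ≠ 0 → x ∈ range (S.M.bn z).j → (S.M.sys.w z).band ⊆ hf S.M l true :=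
      fun z hz k => by
        by_cases j : z = t.a
        exacts [j ▸ a.trans subset_union_left,
          ((Wall.band_subset (hp.2 ha hz (Ne.symm j)) k hx).trans V).trans subset_union_left]
    have := RelAt.con (I := selfId S.M (.subtype _ : S.Ou l ↪ S.A)) (u := p.1) (u' := p.1) ⟨hp, hp, trivial, fun z hz k => ⟨⟨z, w z hz k⟩, rfl, rfl⟩,
      fun z hz k => ⟨⟨z, w z hz k⟩, rfl, hz⟩⟩ (D.lstd i) (D.lstd _) o (.inl (V hx))
      (by rw [th_p, zero_add]; exact (e _).trans (D.agr l hl i _ (.inl (V hx))))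
    rw [th_p, zero_add] at this
    exact (e _).symm.trans this

theorem le_orb (hy : y.OK) (ht : t.OK R c) (hS : S.OK) (h : c i ≠ 0) (h' : c i' ≠ 0) :
    LE (D.Λ i) (D.Λ i') ((S.M.sys.w t.a).sd false) t.a := by
  have := ht.orb i i' h h'
  clear h'
  induction this with
  | refl => exact .rfl
  | tail _ k ih => obtain ⟨l, hl, rfl⟩ := k; exact ih.trans (le_fl hy ht hS hl _)

variable (F c d) in
/-- the hypotheses -/
structure Hp (R : ℕ) (T₀ : ℝ) : Prop where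
  hy : y.OK
  ht : t.OK R c
  cn : CN S d c
  ok : F.OK c d T₀

variable (F c i σ s) in
/-- parameters at which exactly `a` is broken -/
structure St : Prop where
  ne : c i σ ≠ 0
  cell : s ∈ Job.cl (cel σ none)
  inf : Sys.inf (F.Θ s).2 = (cA t).1

variable (F) in
abbrev Bi (i : S.L) := (D.Λ i).B F.m (cA t)
variable (F) in
abbrev Gi (i : S.L) (s : S.A ⊕ Unit → ℝ) := (D.Λ i).G F.m (cA t) (F.Θ s)
variable (t D) in
abbrev Oh (b : Bool) := Ob D.W (cA t) t.a b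
variable (F) in
abbrev vi (i i' : S.L) := vv (D.Λ i) (D.Λ i') F.m (cA t)
variable (t D) in
abbrev LH (b : Bool) (i i' : S.L) := LE (D.Λ i) (D.Λ i') ((S.M.sys.w t.a).sd b) t.a
variable (F) in
abbrev tpi (i : S.L) := Tp.of (D.W.φ (cA t)).toPartialEquiv fun x => rl ((D.Λ i).v F.m (cA t) x)
variable (F) in
abbrev Ct (i : S.L) (l : S.ls) := (tpi F i).cut (S.ct i l)

variable (F) in
/-- the ends at `a` -/
abbrev K0 (i : S.L) {p} (h : Act F.m (cA t) t.a (some b) p) :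
    Nk (yD y) (Bi F i) ((D.Λ i).G F.m (cA t) p) :=
  Ink3.nk (D.Λ i) (S := F.x0) (y.N.cy_ok y.a) (fun _ => F.iso i) h

variable (F) in
theorem at_a (i : S.L) : (F.xg i).at t.a = ⟨F.x0, F.g, ⟨y.N.cy_ok y.a, F.ok⟩, fun _ => F.iso i⟩ :=
  Ink3.XG.upd_self _ _ _

variable {k : ℝ} {r n' : ℕ} {τ : TrS S F.Wi r n'}

theorem St.mem (h : St F c i σ s) : cel σ none ∈ cls c i := ⟨σ, none, σ, rfl, nofun, h.ne, subset_rfl⟩

theorem St.ov (h : St F c i σ s) : (F.jb c i k τ).Ov (cel σ none) (cA t) s := ⟨Job.cl_dom _ h.cell, h.inf⟩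

theorem St.a (h : St F c i σ s) : (F.Θ s).2 t.a = 1 := h.inf.ge rfl

theorem St.ne0 (h : St F c i σ s) : c i ≠ 0 := fun e => h.ne (congrFun e σ)

theorem sd_not {x : S.A} (h : t.Sd b x) : ¬t.Sd (!b) x := fun k =>
  let ⟨_, e⟩ := (S.M.sys.w x).ne true
  Wall.not_mem_sd _ (h e.1) (k e.1)

theorem mem_sd {x : S.A} : x ∈ t.sd b σ ↔ x ∈ σ ∧ t.Sd b x := by classical exact Finset.mem_filter

namespace Hp
variable (H : Hp F c d R T₀)
include H

theorem hyp : Fex7.Hy F c d := ⟨H.cn, H.ht.fz.1, H.ok.T.2, H.ok.mem⟩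

theorem np : ¬S.M.pin t.a := (H.cn.ok.fz _ H.ht.fz.1).1

theorem clopen (b : Bool) : IsClopen (Oh t D b) := ob_clopen cA_eq H.np b

theorem compl (b : Bool) : (Oh t D b)ᶜ = Oh t D (!b) := ob_compl cA_eq H.np b

theorem nb_sub (l : S.ls) : S.nb l ⊆ (S.M.sys.w t.a).sd true := fun x hx =>
  ((S.M.sys.w t.a).mem_cases true x).resolve_right fun k => Wall.not_mem_sd _ hx (k.elim
    (fun k => ((H.cn.ok.fz _ H.ht.fz.1).2.2 l l.2).1 (Wall.core_subset _ k))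
    fun k => Fex7.left_out H.hy H.ht H.cn.ok l.2 k)

theorem unc (l : S.ls) : l ∈ (F.jb c i k τ).unc (cA t) :=
  disjoint_left.2 fun _ hx => sd_sub cA_eq true (H.nb_sub l hx)

theorem side (h : c i σ ≠ 0) {x : S.A} (hx : x ∈ σ) : t.Sd false x ∨ t.Sd true x := by
  obtain ⟨h1, h2⟩ := H.cn.ok.cell i σ (H.cn.cl.mem i σ h).1
  obtain ⟨b, e⟩ := Wall.exists_side (h1 (.inr H.ht.fz.1) (.inl hx)
    fun e => Finset.disjoint_left.1 h2 hx (e ▸ H.ht.fz.1))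
  cases b
  exacts [.inl e, .inr e]

theorem split (h : c i σ ≠ 0) : t.sd false σ ∪ t.sd true σ = σ := Finset.ext fun x => by
  rw [Finset.mem_union, mem_sd, mem_sd, ← and_or_left]
  exact and_iff_left_of_imp (H.side h)

theorem card (h : c i σ ≠ 0) (h' : c i' σ' ≠ 0) : (t.sd false σ).card + (t.sd true σ').card = d :=
  (Finset.card_union_of_disjoint (Finset.disjoint_left.2 fun _ k k' =>
    sd_not (mem_sd.1 k).2 (mem_sd.1 k').2)).symm.trans (H.cn.cl.mem _ _ (H.ht.exc i σ i' σ' h h')).2.1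

variable (h : St F c i σ s)
include h

theorem one : s (.inr ()) = 1 :=
  (Fex7.tpp_one H.ok.T.2.2 (h.cell.2 _).2).1 (Fex7.pv_a.symm.trans h.a)

theorem fc : Pr.Fc σ s := ⟨h.cell, H.one h⟩

theorem br : F.Θ s ∈ S.M.Br (cA t).1 := ⟨(H.hyp.par (H.hyp.dm_cl h.ne h.cell)).1, h.inf.ge⟩

theorem memO : F.Θ s ∈ S.M.O (cA t).1 := h.inf ▸ Mark.mem_O_cOf (H.br h).1

theorem act (b : Bool) : Act F.m (cA t) t.a (some b) (F.Θ s) := ⟨H.np, H.br h, H.memO h, rfl⟩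

theorem gok : (Gi F i s).OK (Bi F i) := (D.Λ i).G_ok _ (H.memO h)

theorem ne_one {x : S.A} (hx : x ∈ hard S ∅) : s (.inl x) ≠ 1 := fun e => by
  have k := H.hyp.dm_cl h.ne h.cell
  have := ((Fex7.th_par H.cn.ok H.ht.fz.1 k).2.symm.trans ((H.hyp.par k).2.symm.trans
    (h.inf.trans cA_eq))).le (.inl ⟨hx, e⟩)
  exact Fex7.not_fz H.cn.ok hx (this ▸ H.ht.fz.1)

theorem tgt {z} (hz : z ∈ (K0 F i (H.act h b)).ψ.target) :
    z ∈ Oh t D b ∧ ∀ i', LH t D b i i' → vi F i i' z = (Bi F i).l z := by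
  obtain ⟨q, h1, h2, rfl⟩ := nk_tgt (H.act h b) (Ink3.isNk _ _ _ _) hz
  exact ⟨⟨_, h1, rfl⟩, fun _ L => L.vv_lit (sd_sub cA_eq b) h1 h2⟩

theorem two (f : ∀ j, (F.jb c i k τ).Ac (cA t) s j → Pt (D.W.Z (cA t)).M (Option κ) (lam ⊕ lam) r n')
    (e : ∀ j hj, j.1 ≠ t.a → f j hj = Ink3.pz) :
    Pt.dsum _ f = (f (t.a, some false) (H.act h _)).add (f (t.a, some true) (H.act h _)) :=
  dsum_two f _ _ (by simp) fun ⟨x, o⟩ hj k k' => e _ hj (by
    rintro rfl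
    rcases o with _ | _ | _
    exacts [hj.2.2.2.2.1.1 rfl, k rfl, k' rfl])

theorem τ0 : (F.jb c i k τ).τ0 (cA t) s = ((N.smul 1).q1 (K0 F i (H.act h false))).add
    ((N.smul 1).q1 (K0 F i (H.act h true))) := by
  have ν : (F.jb c i k τ).ν t.a s = 1 :=
    (if_pos rfl).trans (Fex7.swp_ge H.ok.T.2.2 (by linarith [H.one h, H.ok.T.2.2]))
  have e := fun b => congrArg (fun T : Ink3.XG1 F.Wi (S.N i) t.a =>
    ((T.xs.N.smul 1).q1 (Ink3.nk (D.Λ i) T.ok.1 T.iso (H.act h b)) : Pt _ _ _ r n')) (at_a F i)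
  refine (H.two h _ fun j hj e => Ink3.Nil.q1 (.smul ?_ _) _).trans ?_
  · exact (congrArg (fun X : Xs _ _ _ => Ink3.Nil X.N) (F.xs_ne i e)).mpr Ink3.nd0_nil
  · rw [ν]; exact congrArg₂ _ (e _) (e _)

theorem τw (w : F.Wi) : (F.jb c i k τ).τw (cA t) s w = (Ink3.τf (F.jb c i k τ) (cA t) s w).add
    ((fsum (fun T => N.q2 (K0 F i (H.act h false)) T.1) (F.x0.ty w)).add
      (fsum (fun T => N.q2 (K0 F i (H.act h true)) T.1) (F.x0.ty w))) := by
  have ν : (F.jb c i k τ).ν t.a s = 1 :=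
    (if_pos rfl).trans (Fex7.swp_ge H.ok.T.2.2 (by linarith [H.one h, H.ok.T.2.2]))
  have e := fun b => congrArg (fun T : Ink3.XG1 F.Wi (S.N i) t.a => (fsum (fun T' =>
    T.xs.N.q2 (Ink3.nk (D.Λ i) T.ok.1 T.iso (H.act h b)) T'.1) (T.xs.ty w) : Pt _ _ _ r n')) (at_a F i)
  refine congrArg _ ((H.two h _ fun j hj e => ?_).trans ?_)
  · rw [show ((F.jb c i k τ).xs j.1).ty w = 0 from
      (congrArg (fun X : Xs _ _ _ => X.ty w = 0) (F.xs_ne i e)).mpr rfl, smul_zero, Ink3.fsum_zero]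
  · rw [ν, one_smul]; exact congrArg₂ _ (e _) (e _)

variable (h' : St F c i' σ' s')
include h'

theorem same (b : Bool) : Same (K0 F i (H.act h b)) (K0 F i' (H.act h' b)) := nk_same _ _ _ _ _

theorem th_eq (e : ∀ x, t.Sd b x → s (.inl x) = s' (.inl x)) (z : S.A) :
    ∀ x ∈ (S.M.sys.w t.a).sd b, x ∈ range (S.M.bn z).j → (F.Θ s').2 z = (F.Θ s).2 z := fun x hx k => by
  by_cases j : z = t.a
  · rw [j, h.a, h'.a]
  by_cases o : S.M.sys.Cmp t.a z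
  · refine Eq.trans ?_ (Fex7.pv_congr (v := tpp F.T (s (.inr ()))) fun _ _ =>
      (e z (Wall.band_subset o k hx)).symm)
    rw [H.one h, ← H.one h']; rfl
  · have z0 : ∀ {i σ s}, St F c i σ s → (F.Θ s).2 z = 0 := fun h => by_contra fun k =>
      o ((H.br h).1.2 (h.a.trans_ne one_ne_zero) k (Ne.symm j))
    rw [z0 h, z0 h']

theorem fr (e : ∀ x, t.Sd b x → s (.inl x) = s' (.inl x)) :
    ∀ x ∈ Oh t D b, ∀ a, (Gi F i' s').F.e a x = (Gi F i s).F.e a x :=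
  (agr (Λ := D.Λ i) (Wall.op_sd _ _) (sd_sub cA_eq b) (H.memO h') (H.memO h) rfl (H.th_eq h h' e)).e

theorem kt (L : LH t D b i i') (e : ∀ x, t.Sd b x → s (.inl x) = s' (.inl x)) :
    KT (Bi F i) (Gi F i s) (Bi F i') (Gi F i' s') (Oh t D b) (Oh t D b) id id (PP (Bi F i)) (vi F i i') :=
  kt_of (L.kg (sd_sub cA_eq b) (Wall.op_sd _ _) (H.memO h) (H.memO h') (H.br h)
    (h.a.trans_ne one_ne_zero) rfl (H.th_eq h h' e)) (H.clopen b).1 (H.clopen b).1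
    (Cht98.tame_W _ _ (H.memO h)) (Cht98.tame_W _ _ (H.memO h'))

theorem st_eq (e : ∀ b, t.sd b σ = t.sd b σ' ∧ ∀ x, t.Sd b x → s (.inl x) = s' (.inl x)) :
    σ = σ' ∧ s = s' := by
  have k : σ = σ' := by rw [← H.split h.ne, ← H.split h'.ne, (e _).1, (e _).1]
  refine ⟨k, funext fun x => ?_⟩
  rcases x with x | x
  · by_cases hx : x ∈ σ
    · exact (H.side h.ne hx).elim ((e _).2 x) ((e _).2 x)
    · rw [Ins30.sp_zero h.cell.1 hx, Ins30.sp_zero h'.cell.1 (k ▸ hx)]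
  · exact (H.one h).trans (H.one h').symm

/-- the parameters of the glued object -/
theorem st_glue : ∃ σ'' s'', St F c i' σ'' s'' ∧
    (t.sd false σ'' = t.sd false σ ∧ ∀ x, t.Sd false x → s'' (.inl x) = s (.inl x)) ∧
    t.sd true σ'' = t.sd true σ' ∧ ∀ x, t.Sd true x → s'' (.inl x) = s' (.inl x) := by
  classical
  have c1 := H.ht.exc i σ i' σ' h.ne h'.ne
  let s'' : S.A ⊕ Unit → ℝ :=
    Sum.elim (fun x => if t.Sd false x then s (.inl x) else s' (.inl x)) fun _ => 1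
  have c2 : s'' ∈ Job.cl (cel (t.sd false σ ∪ t.sd true σ') none) := by
    refine ⟨?_, ?_⟩
    · rintro (x | x) b e
      · by_cases hx : x ∈ t.sd false σ ∪ t.sd true σ'
        · cases (if_pos hx).symm.trans e
        obtain rfl : false = b := Option.some.inj ((if_neg hx).symm.trans e)
        rw [Finset.mem_union, mem_sd, mem_sd, not_or] at hx
        by_cases o : t.Sd false x
        · exact (if_pos o).trans (Ins30.sp_zero h.cell.1 fun j => hx.1 ⟨j, o⟩)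
        · exact (if_neg o).trans (Ins30.sp_zero h'.cell.1 fun j =>
            hx.2 ⟨j, (H.side h'.ne j).resolve_left o⟩)
      · cases e
    · rintro (x | x)
      · show ite _ _ _ ∈ _
        split_ifs
        exacts [h.cell.2 _, h'.cell.2 _]
      · exact ⟨zero_le_one, le_rfl⟩
  have k := H.hyp.dm_cl c1 c2
  refine ⟨_, s'', ⟨c1, c2, (H.hyp.par k).2.trans ((Fex7.th_par H.cn.ok H.ht.fz.1 k).2.trans
    (Eq.trans (Set.ext fun x => ⟨fun j => j.elim (fun j => ?_) (·.1), fun j => .inr ⟨j, rfl⟩⟩)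
      cA_eq.symm))⟩, ⟨Finset.ext fun x => ?_, fun x o => if_pos o⟩, Finset.ext fun x => ?_,
    fun x o => if_neg (sd_not o)⟩
  · by_cases o : t.Sd false x
    exacts [(H.ne_one h j.1 ((if_pos o).symm.trans j.2)).elim,
      (H.ne_one h' j.1 ((if_neg o).symm.trans j.2)).elim]
  · simp only [mem_sd, Finset.mem_union]
    exact ⟨fun j => j.1.resolve_right fun o => sd_not j.2 o.2, fun j => ⟨.inl j, j.2⟩⟩
  · simp only [mem_sd, Finset.mem_union]
    exact ⟨fun j => j.1.resolve_left fun o => sd_not o.2 j.2, fun j => ⟨.inr j, j.2⟩⟩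

end Hp

end Crest.Agent.X212.Exc36
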