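import Crest.Agent.X212.Eqv71.Nk1
import Crest.Agent.X212.Nd18.Fct

/-! F-EXC (helper36), part 1: terms see only the spinor on a clopen set and the live `z`. -/

set_option autoImplicit false
set_option linter.unusedSectionVars false
noncomputable section
open scoped Manifold ContDiff Topology InnerProductSpace
open MeasureTheory Set Function Filter

namespace Crest.Agent.X212.Exc36
open An Wz78 Sob92 Mp86 Dgr80 Nd18 Cyf70 Eqv71
open Wrd81 (wd TmIn AwIn LlIn SwIn SgIn CoIn Tv Tf)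
open Cyc79 (Cy bf wv gh)

variable {E : Type} [NormedAddCommGroup E] [NormedSpace ℝ E] [FiniteDimensional ℝ E]
  [MeasurableSpace E] [BorelSpace E]
  {HM : Type} [TopologicalSpace HM] {I : ModelWithCorners ℝ E HM} [I.Boundaryless]
  {M : Type} [TopologicalSpace M] [ChartedSpace HM M] [IsManifold I ∞ M]
  [MeasurableSpace M] [BorelSpace M] [T2Space M] [SecondCountableTopology M]
  {lam : Type} [Fintype lam] {O Ω : Set M} {r r' n n' : ℕ} {x : M}

section gen
variable {ι : Type} [Fintype ι]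

section eo
variable {N N' N'' : Type} [NormedAddCommGroup N] [NormedSpace ℝ N] [NormedAddCommGroup N']
  [NormedSpace ℝ N'] [NormedAddCommGroup N''] [NormedSpace ℝ N'']

variable (I O) in
/-- equal on `O`, smooth and bounded off `O` -/
structure EO (s s' : M → N) : Prop where
  eq : ∀ x ∈ O, s' x = s x
  b : Sb I (Oᶜ.indicator s)
  b' : Sb I (Oᶜ.indicator s')

theorem ind_map (T : M → N → N') (T0 : ∀ x, T x 0 = 0) (s : M → N) :
    (O.indicator fun x => T x (s x)) = fun x => T x (O.indicator s x) := funext fun x => by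
  by_cases hx : x ∈ O <;> simp [hx, T0]

theorem EO.map {s s' : M → N} (h : EO I O s s') (T : M → N → N') (T0 : ∀ x, T x 0 = 0)
    (hT : ∀ u, Sb I u → (∀ x ∈ O, u x = 0) → Sb I fun x => T x (u x)) :
    EO I O (fun x => T x (s x)) fun x => T x (s' x) :=
  ⟨fun x hx => by rw [h.eq x hx],
    ind_map T T0 s ▸ hT _ h.b fun _ hx => indicator_of_notMem (not_not.2 hx) _,
    ind_map T T0 s' ▸ hT _ h.b' fun _ hx => indicator_of_notMem (not_not.2 hx) _⟩

theorem EO.map₂ {s s' : M → N} {t t' : M → N'} (h : EO I O s s') (k : EO I O t t')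
    (T : M → N → N' → N'') (T0 : ∀ x, T x 0 0 = 0)
    (hT : ∀ u v, Sb I u → Sb I v → Sb I fun x => T x (u x) (v x)) :
    EO I O (fun x => T x (s x) (t x)) fun x => T x (s' x) (t' x) := by
  have e : ∀ (s : M → N) (t : M → N'), (Oᶜ.indicator fun x => T x (s x) (t x)) =
      fun x => T x (Oᶜ.indicator s x) (Oᶜ.indicator t x) := fun s t => funext fun x => by
    by_cases hx : x ∈ Oᶜ <;> simp [hx, T0]
  exact ⟨fun x hx => by rw [h.eq x hx, k.eq x hx], e s t ▸ hT _ _ h.b k.b, e s' t' ▸ hT _ _ h.b' k.b'⟩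

theorem EO.ev {s s' : M → N} (h : EO I O s s') (hO : IsOpen O) (hx : x ∈ O) : s' =ᶠ[𝓝 x] s :=
  eventually_of_mem (hO.mem_nhds hx) h.eq

/-- test sections cut off by a function which vanishes off `O` -/
theorem EO.cut {s s' : M → N} (h : EO I O s s') {χ : M → ℝ} (hχ : ∀ x ∉ O, χ x = 0)
    (T : M → N → N') : (fun x => χ x • T x (s' x)) = fun x => χ x • T x (s x) := funext fun y => by
  by_cases hy : y ∈ O
  · rw [h.eq y hy]
  · rw [hχ y hy, zero_smul, zero_smul]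

end eo

section eng
variable {V : Type} [NormedAddCommGroup V] [InnerProductSpace ℝ V] [FiniteDimensional ℝ V]
  [CompleteSpace V] {F : Fr I M ι} {A : ι → M → CL V V} {s s' : M → V}
  (hO : IsClopen O) (hT : ∃ C, F.Tame C) (hA : Mc I A)
include hO hT hA

theorem res_half (e : ∀ x ∈ O, s' x = s x) {w : M → V} (h : F.IsRes A s w)
    (h' : Sb I (Oᶜ.indicator s')) : (∃ w', F.IsRes A s' w') ∧ ∀ x ∈ O, F.res A s' x = w x := by
  obtain ⟨w', k⟩ := Mon62.exists_res_sm hT.choose_spec hA.sm hA.sk h'.sm h'.bd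
  have h1 := isRes_add hA.sm (isRes_ind hO h) (isRes_ind hO.compl k)
  have h2 : (fun y => O.indicator s y + Oᶜ.indicator (Oᶜ.indicator s') y) = s' := funext fun y => by
    by_cases hy : y ∈ O <;> simp [hy, e]
  rw [h2] at h1
  refine ⟨⟨_, h1⟩, fun x hx => ?_⟩
  rw [res_eq (bumps_of_tame _ hT.choose_spec) hA h1]
  simp [hx]

theorem EO.res (h : EO I O s s') : EO I O (F.res A s) (F.res A s') := by
  refine ⟨?_, (sb_res _ _ _).ind hO.compl, (sb_res _ _ _).ind hO.compl⟩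
  rcases res_cases F A s with k | k
  · exact (res_half hO hT hA h.eq k h.b').2
  · rcases res_cases F A s' with k' | k'
    · exact absurd (res_half hO hT hA (fun x hx => (h.eq x hx).symm) k' h.b).1 k.1
    · exact fun x _ => by rw [k.2, k'.2]

omit hO hT hA in
variable (I O) in
/-- letters which are bounded off `O` -/
def SO : SL M V → Prop
  | .op S => ∀ u, Sb I u → (∀ x ∈ O, u x = 0) → Sb I fun x => S x (u x)
  | .G => True

omit hO hT hA in
theorem so_of {a : SL M V} (h : SLb I a) : SO I O a := by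
  cases a
  exacts [fun u k _ => (h k).1, trivial]

omit hO hT hA in
theorem so_mul {f : M → ℝ} (h : ∀ x ∉ O, f x = 0) : SO I O (.op fun x => f x • (1 : CL V V)) :=
  fun u _ k => by
    rw [show (fun x => (f x • (1 : CL V V)) (u x)) = fun _ => 0 from funext fun x => by
      by_cases hx : x ∈ O <;> simp [hx, h, k]]
    exact sb_const 0

theorem EO.wd (h : EO I O s s') {w : List (SL M V)} (hw : ∀ a ∈ w, SO I O a) :
    EO I O (wd (sl F A) s w) (wd (sl F A) s' w) := by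
  induction w with
  | nil => exact h
  | cons a w ih =>
    have k := ih fun b hb => hw b (List.mem_cons_of_mem _ hb)
    cases a with
    | op S => exact k.map (fun x => S x) (fun _ => map_zero _) (hw _ List.mem_cons_self)
    | G => exact k.res hO hT hA

theorem EO.gc {U : Type} [NormedAddCommGroup U] [InnerProductSpace ℝ U] [CompleteSpace U]
    (ρ : CL U (CL V V)) (h : EO I O s s') (hx : x ∈ O) {w : List (SL M V)}
    (hw : ∀ a ∈ w, SO I O a) (l : M → V) : gc F A ρ s' w l x = gc F A ρ s w l x := by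
  induction w generalizing l with
  | nil => rfl
  | cons a w ih =>
    have j := fun b hb => hw b (List.mem_cons_of_mem _ hb)
    cases a with
    | op S => exact ih j _
    | G =>
      have k := ((h.wd hO hT hA (F := F) j).res hO hT hA (F := F)).ev hO.2 hx
      simp only [Dgr80.gc, ih j, cur, k.eq_of_nhds, Wz78.nab_congr _ k]

end eng

/-- another spinor and another `z` -/
abbrev cw (c : Cfg M ι lam r) (Φ : M → c.m.V) (z : EuclideanSpace ℂ (Fin r')) : Cfg M ι lam r' :=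
  ⟨c.m, c.W, Φ, z⟩

variable {B : Base M ι lam} {G : Geo I M ι lam} {F : Fr I M ι} {c : Cfg M ι lam r}
  {Φ : M → c.m.V} {z : EuclideanSpace ℂ (Fin r')}

theorem lt_cw : (cw c Φ z).lt F = c.lt F := funext fun t => by cases t <;> rfl
theorem la_cw : (cw c Φ z).la F = c.la F := funext fun t => by cases t <;> rfl
theorem ltS_cw : ltS F (cw c Φ z) = ltS F c := funext fun t => by cases t <;> rfl
theorem laS_cw : laS (cw c Φ z) = laS c := funext fun t => by cases t <;> rfl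
theorem pk_cw : pk (cw c Φ z) = pk c := funext fun t => by cases t <;> rfl
theorem bf_cw : bf F (cw c Φ z) = bf F c := by
  funext f f'; unfold bf; rw [la_cw]
theorem gh_cw : gh F (cw c Φ z) = gh F c := by
  funext f f' w w' l x; unfold gh; rw [bf_cw]; rfl

variable (c Φ z) in
/-- seeds which do not see the spinor -/
def SE (S : Sed M ι lam r) (S' : Sed M ι lam r') : Prop := S'.s (cw c Φ z) = S.s c ∧
  S'.sA (cw c Φ z) = S.sA c ∧ S'.sP (cw c Φ z) = S.sP c

theorem se_cy (d : Cy M) : SE c Φ z (d.sed F) (d.sed F) :=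
  ⟨by funext x; simp only [Cy.sed, Cy.al, Cy.be, bf_cw]; rfl,
    by funext l x; simp only [Cy.sed, gh_cw]; rfl, rfl⟩

theorem SE.wd {S : Sed M ι lam r} {S' : Sed M ι lam r'} (h : SE c Φ z S S') (w : List (La M)) :
    SE c Φ z (S.wd F w) (S'.wd F w) :=
  ⟨by simp only [Sed.wd, la_cw, h.1], by funext l x; simp only [Sed.wd, laS_cw, h.1, h.2.1],
    by funext l; simp only [Sed.wd, laS_cw, h.2.2]⟩

variable (B G O c Φ) in
/-- the spinor is changed off the clopen set `O` -/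
structure LO : Prop where
  hB : B.OK I
  hG : G.OK B
  cl : IsClopen O
  tm : ∃ C, G.F.Tame C
  ad : Ad0 c B G
  e : EO I O c.Φ Φ
  sm : Sm I Φ

/-- letters of spinor words, bounded off `O` -/
def LtO (F : Fr I M ι) (O : Set M) (t : Lt M) : Prop :=
  Ltb F t ∨ ∃ f, t = .mul f ∧ ∀ x ∉ O, f x = 0

/-- letters of adjoint words, bounded off `O` -/
def LaO (F : Fr I M ι) (O : Set M) (t : La M) : Prop :=
  La.OK F t ∨ ∃ f, t = .mul f ∧ ∀ x ∉ O, f x = 0

theorem ltO_in {u : SW M} (h : SwIn I Ω u) : ∀ t ∈ u, LtO F O t :=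
  fun t ht => .inl (ltb_of_ok (h.ok F t ht))

theorem laO_in {l : List (La M)} (h : LlIn I Ω l) : ∀ t ∈ l, LaO F O t :=
  fun t ht => .inl (h.ok F t ht)

namespace LO
variable (h : LO O B G c Φ)
include h

theorem so {u : SW M} (hu : ∀ t ∈ u, LtO G.F O t) : ∀ a ∈ u.map (ltS G.F c), SO I O a :=
  List.forall_mem_map.2 fun t ht => (hu t ht).elim (fun k => so_of (slb_lt h.hB h.ad.ok k))
    fun ⟨_, e, k⟩ => e ▸ so_mul k

theorem lt {s s' : M → c.m.V} (k : EO I O s s') {u : SW M} (hu : ∀ t ∈ u, LtO G.F O t) :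
    EO I O (wd (c.lt G.F) s u) (wd (c.lt G.F) s' u) := by
  rw [lt_eq, lt_eq]; exact k.wd h.cl h.tm (Eqv71.mc_W h.ad.conn) (h.so hu)

theorem la {s s' : M → c.m.A} (k : EO I O s s') {l : List (La M)} (hl : ∀ t ∈ l, LaO G.F O t) :
    EO I O (wd (c.la G.F) s l) (wd ((cw c Φ z).la G.F) s' l) := by
  rw [la_cw (c := c) (Φ := Φ) (z := z), la_eq, la_eq]
  refine k.wd h.cl h.tm (Eqv71.mc_adW h.ad.conn) (List.forall_mem_map.2 fun t ht => ?_)
  rcases hl t ht with j | ⟨f, rfl, j⟩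
  · cases t
    exacts [so_of (slb_mul (Sb.of_cb j)), trivial]
  · exact so_mul j

theorem sw {u : SW M} (hu : ∀ t ∈ u, LtO G.F O t) :
    EO I O (c.sw G.F u) ((cw c Φ z).sw G.F u) := by
  rw [Cfg.sw, Cfg.sw, lt_cw (c := c) (Φ := Φ) (z := z)]; exact h.lt h.e hu

theorem nP : EO I O (nP c) (nP (cw c Φ z)) :=
  ⟨fun x hx => by simp only [Dgr80.nP, h.e.eq x hx], (sb_nP h.ad.sm).ind h.cl.compl,
    (sb_nP (c := cw c Φ z) h.sm).ind h.cl.compl⟩

theorem nw {u : SW M} (hu : ∀ t ∈ u, LtO G.F O t) :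
    EO I O (nw G.F c u) (nw G.F (cw c Φ z) u) := by
  rw [Dgr80.nw, Dgr80.nw, lt_cw (c := c) (Φ := Φ) (z := z)]; exact h.lt h.nP hu

theorem q {a a' b b' : M → c.m.V} (ka : EO I O a a') (kb : EO I O b b') :
    EO I O (fun x => c.m.q x (a x) (b x)) fun x => c.m.q x (a' x) (b' x) :=
  ka.map₂ kb (fun x => c.m.q x) (fun x => by simp [Md.q, rk1]) fun _ _ ⟨s, C, h1⟩ ⟨t, D, h2⟩ =>
    ⟨fun x => sa_q (Std94.sm_pg h.hB h.ad.ok) (s x) (t x), C * D, fun x => (norm_q _ _).trans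
      (mul_le_mul (h1 x) (h2 x) (norm_nonneg _) ((norm_nonneg _).trans (h1 x)))⟩

theorem aw {ξ : AW M} (hl : ∀ t ∈ ξ.l, LaO G.F O t)
    (hs : ∀ u v, ξ.s = .q u v → (∀ t ∈ u, LtO G.F O t) ∧ ∀ t ∈ v, LtO G.F O t) :
    EO I O (c.aw G.F ξ) ((cw c Φ z).aw G.F ξ) := by
  obtain ⟨s, l⟩ := ξ
  refine h.la ?_ hl
  cases s with
  | q u v => exact h.q (h.sw (hs u v rfl).1) (h.sw (hs u v rfl).2)
  | cv => exact ⟨fun _ _ => rfl, (sb_res _ _ _).ind h.cl.compl, (sb_res _ _ _).ind h.cl.compl⟩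

theorem aw' {ξ : AW M} (i : AwIn I Ω ξ) (hx : x ∈ O) :
    (cw c Φ z).aw G.F ξ x = c.aw G.F ξ x :=
  (h.aw (laO_in i.2) fun _ _ e => have j := e ▸ i.1; ⟨ltO_in j.1, ltO_in j.2⟩).eq x hx

variable (hΩ : Ω ⊆ O)
include hΩ

theorem sg {g : Sg M lam} (i : SgIn I Ω g) : (cw c Φ z).sg G.F g = c.sg G.F g := by
  refine integral_congr_ae (.of_forall fun x => ?_)
  by_cases hx : x ∈ O
  · simp only [(h.sw (z := z) (ltO_in i.2.1)).eq x hx, (h.sw (z := z) (ltO_in i.2.2)).eq x hx]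
  · have : g.s x = 0 := image_eq_zero_of_notMem_tsupport fun k => hx (hΩ (i.1.sub k))
    simp [this, hm]

variable {f : Fin r' → Fin r} (hz : ∀ i, z i = c.z (f i))
include hz

theorem co {d : Co M lam r'} (i : CoIn I Ω d) : (cw c Φ z).co G.F d = c.co G.F (d.mp f) := by
  cases d with
  | z j => exact hz j
  | s g L =>
    simp only [Cfg.co, Co.mp, h.sg hΩ i.1]
    rw [List.map_congr_left fun g' k => by rw [h.sg hΩ (i.2 g' k)]]

theorem cjw {d : Co M lam r'} (i : CoIn I Ω d) {s : M → Eu lam} (hs : Tv I Ω s) {u : SW M}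
    (hu : SwIn I Ω u) :
    EO I O (fun y => cs c.m.J (c.co G.F (d.mp f)) (c.m.j y (s y) (c.sw G.F u y)))
      fun y => cs c.m.J ((cw c Φ z).co G.F d) (c.m.j y (s y) ((cw c Φ z).sw G.F u y)) := by
  rw [h.co hΩ hz i]
  exact (h.sw (ltO_in hu)).map (fun y a => cs c.m.J _ (c.m.j y (s y) a)) (fun y => by simp [cs])
    fun _ k _ => ((sb_j h.hB h.ad.ok (.of_cb (F := G.F) (Cb_of_hcs hs.sm hs.hcs))).app k).clm (csL _ _)

theorem qj {d : Co M lam r'} (i : CoIn I Ω d) {s : M → Eu lam} (hs : Tv I Ω s) {u v : SW M}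
    (hu : SwIn I Ω u) (hv : SwIn I Ω v) {l : List (La M)} (hl : LlIn I Ω l) (hx : x ∈ O) :
    wd ((cw c Φ z).la G.F) ((cw c Φ z).qj G.F d s u v) l x =
      wd (c.la G.F) (c.qj G.F (d.mp f) s u v) l x :=
  (h.la (h.q (h.cjw hΩ hz i hs hu) (h.sw (ltO_in hv))) (laO_in hl)).eq x hx

variable (g : Fin n' → Fin n) {T : Tm M lam r' n'} (i : TmIn I Ω T)
include i

theorem tD (hx : x ∈ O) : (cw c Φ z).tD B G.F T x = c.tD B G.F (T.mp f g) x := by
  cases T with
  | lin u => exact congrArg (c.m.pm B x) ((h.sw (z := z) (ltO_in i.1)).eq x hx)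
  | anti d s u => exact congrArg (c.m.pm B x) ((h.cjw hΩ hz i.1 i.2.1 i.2.2).eq x hx)
  | _ => rfl

theorem tC (hx : x ∈ O) : (cw c Φ z).tC B G.F T x = c.tC B G.F (T.mp f g) x := by
  cases T with
  | ad a b ξ => simp only [Cfg.tC, Tm.mp, h.aw' i.2.2 hx]
  | adj d s a b u v l =>
    simp only [Cfg.tC, Tm.mp,
      h.qj hΩ hz i.1 i.2.1 i.2.2.2.2.1 i.2.2.2.2.2.1 i.2.2.2.2.2.2 hx]
  | adn e a b φ L =>
    have : (cw c Φ z).aws G.F L x = c.aws G.F L x :=
      congrArg List.sum (List.map_congr_left fun ξ k => h.aw' (i.2.2.2.2.2 ξ k) hx)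
    simp only [Cfg.tC, Tm.mp, this]
  | _ => rfl

theorem tS (hg : Injective g) (j : Fin n') : (cw c Φ z).tS G.F T j = c.tS G.F (T.mp f g) (g j) := by
  cases T with
  | cut k w a => simp only [Cfg.tS, Tm.mp, h.sg hΩ i, Pi.single_apply, hg.eq_iff]
  | cz k w a => simp only [Cfg.tS, Tm.mp, hz, Pi.single_apply, hg.eq_iff]
  | _ => rfl

omit i in
theorem tc (k : Cut M lam) (hx : k.x0 ∈ O) {t : Tc M lam r'} (i : XiIn I Ω t.ξ) :
    (cw c Φ z).tc B G.F k t = c.tc B G.F k ⟨t.m, t.n, t.w, t.ξ.mp f⟩ := by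
  rcases t with ⟨m, n, w, _ | ξ | ⟨d, s, u, v, l⟩⟩
  · rfl
  · simp only [Cfg.tc, Cfg.xi, Xi.mp, h.aw' i hx]
  · simp only [Cfg.tc, Cfg.xi, Xi.mp, h.qj hΩ hz i.1 i.2.1 i.2.2.1 i.2.2.2.1 i.2.2.2.2 hx]

omit hΩ hz i

/-- densities of spinor words -/
theorem den {χ : M → ℝ} (hχ : ∀ x ∉ O, χ x = 0) (T : Pk M lam) {u v : SW M}
    (hu : ∀ t ∈ u, LtO G.F O t) (hv : ∀ t ∈ v, LtO G.F O t) :
    (dcut χ (Den.sw G.F T u v)).h (cw c Φ z) = (dcut χ (Den.sw G.F T u v)).h c ∧ ∀ f, ∀ x ∈ O,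
      (dcut χ (Den.sw G.F T u v)).gA (cw c Φ z) f x = (dcut χ (Den.sw G.F T u v)).gA c f x ∧
      (dcut χ (Den.sw G.F T u v)).gP (cw c Φ z) f x = (dcut χ (Den.sw G.F T u v)).gP c f x := by
  have k : ∀ (f : M → ℝ) {w}, (∀ t ∈ w, LtO G.F O t) →
      (fun y => (f y * χ y) • pk c T y (Dgr80.nw G.F (cw c Φ z) w y)) =
      fun y => (f y * χ y) • pk c T y (Dgr80.nw G.F c w y) := fun f w hw =>
    (h.nw hw).cut (fun y hy => by rw [hχ y hy, mul_zero]) fun y => pk c T y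
  refine ⟨funext fun y => ?_, fun f x hx => ⟨?_, ?_⟩⟩
  · by_cases hy : y ∈ O
    · simp only [dcut, Den.sw, pk_cw, (h.nw (z := z) hu).eq y hy, (h.nw (z := z) hv).eq y hy]
    · simp only [dcut, hχ y hy, zero_mul]
  · simp only [dcut, Den.sw, pk_cw, k f hu, k f hv, swA, ltS_cw,
      (h.nP (z := z)).gc h.cl h.tm (Eqv71.mc_W h.ad.conn) _ hx (h.so hu),
      (h.nP (z := z)).gc h.cl h.tm (Eqv71.mc_W h.ad.conn) _ hx (h.so hv)]
  · simp only [dcut, Den.sw, pk_cw, k f hu, k f hv, swP, ltS_cw, dn, h.e.eq x hx]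

theorem nt (τ : M → ℝ) (hx : x ∈ O) : nt G.F c.W τ Φ x = nt G.F c.W τ c.Φ x := by
  simp only [Dgr80.nt, Wz78.nab_congr _ (h.e.ev h.cl.2 hx)]

/-- the left sides of the equations -/
theorem eqs {τ : Pt M ι lam r n} {τ' : Pt M ι lam r' n'} (hx : x ∈ O)
    (k : τ'.D (cw c Φ z) x = τ.D c x ∧ τ'.C (cw c Φ z) x = τ.C c x) :
    (cw c Φ z).eD G τ' x = c.eD G τ x ∧ (cw c Φ z).eC B G τ' x = c.eC B G τ x :=
  ⟨by simp only [Cfg.eD, k.1, dir, Wz78.nab_congr _ (h.e.ev h.cl.2 hx)],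
    by simp only [Cfg.eC, k.2, h.e.eq x hx]⟩

end LO
end gen

variable {E3 : Type} [NormedAddCommGroup E3] [NormedSpace ℝ E3] [FiniteDimensional ℝ E3]
  [MeasurableSpace E3] [BorelSpace E3]
  {H3 : Type} [TopologicalSpace H3] {I3 : ModelWithCorners ℝ E3 H3} [I3.Boundaryless]
  {Y : Type} [TopologicalSpace Y] [ChartedSpace H3 Y] [IsManifold I3 ∞ Y] [T2Space Y]
  [MeasurableSpace Y] [BorelSpace Y] [SecondCountableTopology Y] [CompactSpace Y]
  {κ : Type} [Fintype κ] {D : YD I3 Y κ lam} {B : Base M (Option κ) lam}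
  {G : Geo I M (Option κ) lam} {c : Cfg M (Option κ) lam r} {Φ : M → c.m.V}
  {z : EuclideanSpace ℂ (Fin r')} (K : Nk D B G) {N : ND Y lam}

namespace LO
variable (h : LO O B G c Φ) (hK : K.ψ.target ⊆ O) (hN : N.OK D)
include h hK hN

theorem dg (j : N.J) : ((N.dg K).d j).h (cw c Φ z) = ((N.dg K).d j).h c ∧ ∀ f, ∀ x ∈ O,
    ((N.dg K).d j).gA (cw c Φ z) f x = ((N.dg K).d j).gA c f x ∧
    ((N.dg K).d j).gP (cw c Φ z) f x = ((N.dg K).d j).gP c f x := by
  have hχ : ∀ x ∉ O, K.χ x = 0 := fun x hx => χ_off K fun k => hx (hK k)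
  have l : ∀ {w : List (YL Y)}, (∀ t ∈ w, YL.OK I3 t) → ∀ t ∈ w.map K.lt, LtO G.F O t :=
    fun k t ht => .inl (ltb_map K k t ht)
  rcases j with j | j | j
  · show (K.den (N.d0 j)).h (cw c Φ z) = (K.den (N.d0 j)).h c ∧ ∀ f, ∀ x ∈ O,
      (K.den (N.d0 j)).gA (cw c Φ z) f x = (K.den (N.d0 j)).gA c f x ∧
      (K.den (N.d0 j)).gP (cw c Φ z) f x = (K.den (N.d0 j)).gP c f x
    have o := hN.d0 j
    revert o
    cases N.d0 j with
    | sw u v => exact fun o => h.den hχ _ (l o.1) (l o.2)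
    | cy d w d' w' =>
      have a := (se_cy (c := c) (Φ := Φ) (z := z) (F := G.F) (K.cyc d)).wd (F := G.F) (w.map K.la)
      have b := (se_cy (c := c) (Φ := Φ) (z := z) (F := G.F) (K.cyc d')).wd (F := G.F) (w'.map K.la)
      exact fun _ => ⟨by simp only [Nk.den, dcut, Den.sed, a.1, b.1], fun _ _ _ =>
        ⟨by simp only [Nk.den, dcut, Den.sed, a.1, b.1, a.2.1, b.2.1],
          by simp only [Nk.den, dcut, Den.sed, a.1, b.1, a.2.2, b.2.2]⟩⟩
  · exact h.den hχ _ (l (hN.d2 j).2.1) (l (hN.d2 j).2.2)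
  · exact h.den hχ _ (l (hN.d2 j).2.1) (l (hN.d2 j).2.2)

theorem q1 (hx : x ∈ O) :
    (N.q1 K : Pt _ _ _ r' n').D (cw c Φ z) x = (N.q1 K : Pt _ _ _ r n).D c x ∧
    (N.q1 K : Pt _ _ _ r' n').C (cw c Φ z) x = (N.q1 K : Pt _ _ _ r n).C c x := by
  have e : (N.dg K).Iv G.F (cw c Φ z) = (N.dg K).Iv G.F c :=
    funext fun t => funext fun j => congrArg (wn _ _ _ · t) (h.dg K hK hN j).1
  have b : ∀ j, (N.dg K).β G.F (cw c Φ z) j = (N.dg K).β G.F c j := fun j => by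
    unfold DG.β DG.co; rw [e]; rfl
  have g : (N.dg K).gA G.F (cw c Φ z) x = (N.dg K).gA G.F c x :=
    Finset.sum_congr rfl fun j _ => by rw [b]; exact ((h.dg K hK hN j).2 _ x hx).1
  have g' : (N.dg K).gP G.F (cw c Φ z) x = (N.dg K).gP G.F c x :=
    Finset.sum_congr rfl fun j _ => by rw [b]; exact ((h.dg K hK hN j).2 _ x hx).2
  exact ⟨by simp only [ND.q1, DG.q1, g']; rfl, by simp only [ND.q1, DG.q1, g]; rfl⟩

omit hN in
theorem ew : N.ew K (cw c Φ z) = N.ew K c := funext fun x => by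
  by_cases hx : x ∈ O
  · simp only [ND.ew, Dgr80.ew, h.nt _ hx]
    rfl
  · have : K.χ4 x = 0 := ct_zero fun k => hx (hK (K.dp_sub (by norm_num) k))
    simp only [ND.ew, this, zero_mul]

omit hN in
theorem q2 {T : YT Y} (hT : T.OK I3) (hx : x ∈ O) :
    (N.q2 K T : Pt _ _ _ r' n').D (cw c Φ z) x = (N.q2 K T : Pt _ _ _ r n).D c x ∧
    (N.q2 K T : Pt _ _ _ r' n').C (cw c Φ z) x = (N.q2 K T : Pt _ _ _ r n).C c x := by
  have hχ : ∀ x ∉ O, K.χ x = 0 := fun x hx => χ_off K fun k => hx (hK k)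
  have v : ∀ C, (N.tc K C).val G.F K.τ N.δ (cw c Φ z) = (N.tc K C).val G.F K.τ N.δ c := fun C => by
    funext t
    simp only [TC.val, ND.tc, h.ew K hK]
  have l1 : ∀ u : List (YL Y ⊕ YTC), (u.map (N.tl K)).map (tl G.F K.τ N.δ (cw c Φ z)) =
      (u.map (N.tl K)).map (tl G.F K.τ N.δ c) := fun u => by
    rw [List.map_map, List.map_map]
    refine List.map_congr_left fun t _ => ?_
    cases t with
    | inl => rfl
    | inr C => exact congrArg (fun f => Lt.mul fun x => K.χ x * f (K.τ x)) (v C)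
  have l2 : ∀ u : List (La Y ⊕ YTC), (u.map (N.ta K)).map (ta G.F K.τ N.δ (cw c Φ z)) =
      (u.map (N.ta K)).map (ta G.F K.τ N.δ c) := fun u => by
    rw [List.map_map, List.map_map]
    refine List.map_congr_left fun t _ => ?_
    cases t with
    | inl => rfl
    | inr C => exact congrArg (fun f => La.mul fun x => K.χ x * f (K.τ x)) (v C)
  have o1 : ∀ {u : List (YL Y ⊕ YTC)}, tlOK I3 u →
      ∀ t ∈ (u.map (N.tl K)).map (tl G.F K.τ N.δ c), LtO G.F O t := fun {u} k =>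
    List.forall_mem_map.2 (List.forall_mem_map.2 fun t ht => by
      cases t with
      | inl a => exact .inl (ltb_map K (w := [a]) (by simpa using k _ ht) _ (by simp [ND.tl, tl]))
      | inr C => exact .inr ⟨_, rfl, fun x hx => mul_eq_zero_of_left (hχ x hx) _⟩)
  have o2 : ∀ (u : List (La Y ⊕ YTC)),
      ∀ t ∈ (u.map (N.ta K)).map (ta G.F K.τ N.δ c), LaO G.F O t := fun u =>
    List.forall_mem_map.2 (List.forall_mem_map.2 fun t _ => by
      rcases t with (f | _) | C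
      · exact .inr ⟨_, rfl, fun x hx => smul_eq_zero_of_left (hχ x hx) _⟩
      · exact .inl trivial
      · exact .inr ⟨_, rfl, fun x hx => mul_eq_zero_of_left (hχ x hx) _⟩)
  have t : (cw c Φ z).tD B G.F (N.tm K (cw c Φ z) n' T) x = c.tD B G.F (N.tm K c n T) x ∧
      (cw c Φ z).tC B G.F (N.tm K (cw c Φ z) n' T) x = c.tC B G.F (N.tm K c n T) x := by
    cases T with
    | lin C u =>
      simp only [ND.tm, TT.tm, l1]
      exact ⟨congrArg (c.m.pm B x) ((h.sw (z := z) (o1 hT.2)).eq x hx), rfl⟩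
    | ad C g u w l =>
      simp only [ND.tm, TT.tm, l1, l2, Cfg.tC]
      rw [(h.aw (o2 l) fun _ _ e => by cases e; exact ⟨o1 hT.2.2.1, o1 hT.2.2.2.1⟩).eq x hx]
      exact ⟨rfl, rfl⟩
    | cv C g f a b l =>
      simp only [ND.tm, l2, Cfg.tC]
      rw [(h.aw (o2 l) fun _ _ e => by cases e).eq x hx]
      exact ⟨rfl, rfl⟩
  simp only [ND.q2, ND.oc, v, t.1, t.2, and_self]

end LO

end Crest.Agent.X212.Exc36
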