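import Crest.Agent.X212.Exc36.Trn

/-! F-EXC (helper36), part 5: normal forms of face objects. -/

set_option autoImplicit false
set_option linter.unusedSectionVars false
noncomputable section
open scoped Manifold ContDiff Topology
open Set Function Filter MeasureTheory

namespace Crest.Agent.X212.Exc36
open An M G75 Eqv71 Nd18 Ins26 Jb7 Wrd81
open An.Job (Sol)

/-- the coordinates, extended by zero -/
def zx {r : ℕ} (z : EuclideanSpace ℂ (Fin r)) (j : ℕ) : ℂ := if h : j < r then z ⟨j, h⟩ else 0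

theorem zx_coe {r : ℕ} (z : EuclideanSpace ℂ (Fin r)) (j : Fin r) : zx z j = z j := dif_pos j.2

theorem zx_inj {r : ℕ} {z z' : EuclideanSpace ℂ (Fin r)} (h : zx z = zx z') : z = z' := by
  ext j
  rw [← zx_coe, ← zx_coe, h]

theorem zx_norm {r r' : ℕ} {z : EuclideanSpace ℂ (Fin r)} {z' : EuclideanSpace ℂ (Fin r')}
    (h : zx z' = zx z) : ‖z'‖ = ‖z‖ := by
  have k : ∀ {r} (z : EuclideanSpace ℂ (Fin r)) (p : ℕ), r ≤ p →
      ‖z‖ = √(∑ j ∈ Finset.range p, ‖zx z j‖ ^ 2) := fun z p e => by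
    simp only [EuclideanSpace.norm_eq, ← zx_coe]
    rw [Fin.sum_univ_eq_sum_range fun j => ‖zx z j‖ ^ 2]
    exact congrArg _ (Finset.sum_subset (Finset.range_mono e) fun j _ hj => by
      rw [zx, dif_neg (mt Finset.mem_range.2 hj)]; simp)
  rw [k z _ (le_max_left r r'), k z' _ (le_max_right r r'), h]

section cv
variable {Wi : Type} {X : Mf 4} {A κ lam : Type} [Fintype A] [Fintype κ] [Fintype lam]
  [DecidableEq lam] {M : Mark X A κ} {W : World M} {N : ML M lam} {S S' : Xs Wi κ lam}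

theorem cv_cv (e : S = S') (e' : S' = S) (β) : cv e' (cv e β) = β := by subst e; rfl

theorem crit_cv (e : S = S') {β} : S'.N.Crit S'.D (cv e β) ↔ S.N.Crit S.D β := by subst e; rfl

theorem lim_cv {a : A} {T T' : Ink3.XG1 Wi N a} (e : T = T') (e' : T.xs = T'.xs) (Λ : Lns W N)
    {m c : M.Cl} {b p} (h : Act m c a b p) {r : ℕ} {x : Cfg _ _ _ r} {β ζ l} :
    (Ink3.nk Λ T'.ok.1 T'.iso h).Lim x (cv e' β) ζ l ↔ (Ink3.nk Λ T.ok.1 T.iso h).Lim x β ζ l := by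
  subst e; rfl

theorem brk_zero {q β ζ β' ζ' k j} (h : S.N.Brk S.D q β ζ β' ζ' k j) (e : j = 0) :
    β' = β ∧ ζ' = ζ ∧ k = 0 := by
  cases h
  exacts [⟨rfl, rfl, rfl⟩, (Nat.succ_ne_zero _ e).elim, (Nat.succ_ne_zero _ e).elim]

end cv

variable {κ lam : Type} [Fintype κ] [Fintype lam] [DecidableEq lam] {Lm : LM κ lam} {S : Scene Lm}
  {y : G75.YD κ lam} {t : TD y S} {N : ND (yY y).M (lam ⊕ lam)} {n : ℕ} {D : S.Dat}
  {F : Pr t N n D} {c : Cn S.L S.A} {d R : ℕ} {T₀ : ℝ} {i : S.L} {σ : Finset S.A}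
  {s s' : S.A ⊕ Unit → ℝ} {q : F.Wi →₀ ℝ} {C : N.CD (yD y)} {lv : C.C → ℝ} {m : ℕ}
  {k : Fin (n + 1)} {x x' : Cf t D (m - k + 1 + n)} {ψ : ∀ l, (Ct F i l).H (Bi F i) x.m}
  {ψ' : ∀ l, (Ct F i l).H (Bi F i) x'.m} {o o' : C.C}

variable (c d σ s q lv x ψ o) in
/-- normal forms: both ends converge to a chosen point, without phase -/
structure NF : Prop where
  st : St F c i σ s
  le : (k : ℕ) ≤ m
  sol : x.Sol (Bi F i) (Gi F i s) ((F.J c d i m k).τ (cA t) q s)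
  cut : ∀ l, (Ct F i l).Sol (Bi F i) (Gi F i s).F ((F.J c d i m k).σc (cA t) q s l) x (ψ l)
  lim : ∀ b h, (K0 F i (b := b) (p := F.Θ s) h).Lim x (C.β o) 1 (bif b then atBot else atTop)
  int : Integrable (x.m.kd (Bi F i) (Gi F i s).F x.W) (Gi F i s).F.μ
  lev : x.kap (Bi F i) (Gi F i s) = kz S i (m - k) (-d)
  nf : ¬C.fx o
  lvl : 6 * ∫ z in Oh t D false, x.m.kd (Bi F i) (Gi F i s).F x.W z ∂(Gi F i s).F.μ + 2 * m +
    (t.sd false σ).card = lv o

variable (c d s x ψ o) in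
/-- the object of a normal form -/
def ob : (F.J c d i m k).Obc (cA t) :=
  ⟨s, x, univ, ψ, fun a _ => if h : a = t.a then cv ((F.xs_a i).symm.trans (congrArg _ h.symm)) (C.β o)
    else ⟨⟨0, 0, 0, 0, 0⟩, 0, 0, 0⟩, fun _ _ => 1, 0, 0, 0⟩

variable (H : Hp F c d R T₀)
include H

theorem NF.ts (h : NF c d σ s q lv x ψ o) :
    Sol (cel σ none) q (ob c d s x ψ o) ∧ (ob c d s x ψ o).Tight := by
  have β : ∀ b, (ob c d s x ψ o).β t.a b = cv (F.xs_a i).symm (C.β o) := fun _ => dif_pos rfl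
  refine ⟨⟨h.st.cell, h.st.inf, h.sol, fun l _ => H.unc l, fun l _ => h.cut l, by simp [ob],
    fun a b ha => ?_, fun a ha b => ?_, fun a _ => .nil _ _, h.int, ?_⟩, rfl, fun _ _ => rfl⟩
  · obtain rfl : a = t.a := cA_eq.le ha.2.2.2
    rw [β]
    exact (lim_cv (at_a F i).symm _ _ ha).2 (h.lim b ha)
  · obtain rfl : a = t.a := cA_eq.le ha.1
    rw [β]
    exact (crit_cv _).2 (C.crit o)
  · simpa [ob] using h.lev

theorem NF.bdd (h : NF c d σ s q lv x ψ o) : ∃ C, ∀ z, ‖x.Φ z‖ ≤ C :=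
  Job.Sol.bdd (H.ok.J i h.st.ne0 m k).1 h.st.mem (h.ts H).1

theorem NF.dead (h : NF c d σ s q lv x ψ o) (hq : ∀ ρ, q (F.wD ρ) ≠ 0) {j : ℕ} (hj : m < j) :
    zx x.z j = 0 := by
  have := h.le
  rw [zx]
  split_ifs with e
  · have k := (H.row_D h.st (ρ := ⟨j - (m - k + 1), by omega⟩) (by simp only; omega)).symm.trans
      (h.sol.S _)
    rw [← (mul_eq_zero.1 k).resolve_left (Complex.ofReal_ne_zero.2 (hq _))]
    exact congrArg _ (Fin.ext (by simp only [Fin.val_natAdd]; omega))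
  · rfl

/-- **every face object has a normal form** -/
theorem exists_nf (hc : c i σ ≠ 0) (hk : (k : ℕ) ≤ m) {z : (F.J c d i m k).Obc (cA t)}
    (hs : Sol (cel σ none) q z) (ht : z.Tight) (fp : Pr.Fp C lv σ z) :
    ∃ x ψ o, NF c d σ z.s q lv x ψ o ∧ Job.Iso (ob c d z.s x ψ o) z := by
  obtain ⟨o, e, nf, lvl⟩ := fp
  have st : St F c i σ z.s := ⟨hc, hs.cell, hs.inf⟩
  have ha : t.a ∈ cylW (cA t) := ⟨rfl, H.np⟩
  obtain ⟨b1, b2, b3⟩ := brk_zero (hs.brk _ ha) (ht.2 _ ha)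
  have A := Dgr80.adm_crit ((crit_cv (F.xs_a i)).2 (hs.crit _ ha false))
  have A' := Dgr80.adm_crit (C.crit o)
  obtain ⟨g, ξ, sb⟩ := Dgr80.stb_of_eqv (y.N.cy_ok y.a).yd A A' e
  have a := ad0 hs.sol.toAdm
  have hB := (D.Λ i).B_ok F.m (cA t)
  have e0 := ceq_phs (ξ * z.ζ t.a false) hB (H.gok st) a isOpen_univ
  have a' := ad0_phs (ξ * z.ζ t.a false) a
  have e1 := ceq_symm_id hB (H.gok st) isOpen_univ a a' e0
  have f := fun l : S.ls => Lns95.eqv_symm a.ok e0.m (mem_univ _) rfl (Cnt93.eqv_refl a.ok (z.ψ l))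
  have k := hs.re (H.ok.J i st.ne0 m k).1 st.mem a' e1 fun l _ => f l
  refine ⟨phs (ξ * z.ζ t.a false) z.x, z.ψ, o, ⟨st, hk, k.sol, fun l => k.cut l ((hs.H_eq ht.1).ge (H.unc l)), fun b h => ?_,
    k.int, ?_, nf, ?_⟩, rfl, _, _, e1, fun l => f l⟩
  · have L := (lim_cv (at_a F i) (F.xs_a i) _ h).2 (hs.lim _ b h)
    have : z.β t.a b = z.β t.a false ∧ z.ζ t.a b = z.ζ t.a false := by
      cases b
      exacts [⟨rfl, rfl⟩, ⟨b1, b2⟩]
    rw [this.1, this.2] at L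
    exact mul_inv_cancel (ξ * z.ζ t.a false) ▸
      lim_pre hB isOpen_univ (subset_univ _) A' a' a e1 (Dgr80.lim_stb A A' a sb L)
  · have := hs.lev
    rw [ht.1, Finset.sum_eq_zero fun a _ => indicator_apply_eq_zero.2 fun h => by
      rw [show a = t.a from cA_eq.le h.1, b3], add_zero, Nat.cast_zero, add_zero] at this
    exact this
  · rw [← lvl, show D.W.un _ (sdP t (cA t) false) = _ from un_eq cA_eq H.np false]; rfl

/-- **isomorphic normal forms are isomorphic without phase** -/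
theorem NF.iso (h : NF c d σ s q lv x ψ o) (h' : NF c d σ s' q lv x' ψ' o')
    (e : Job.Iso (ob c d s x ψ o) (ob c d s' x' ψ' o')) : s = s' ∧ o = o' ∧ ∃ u,
      CEq (Gi F i s).F x x' univ id (PP (Bi F i)) (Bi F i).l u 1 ∧
      ∀ l, (Ct F i l).Eqv (Ct F i l) (Bi F i) (Bi F i) u (ψ l) (ψ' l) := by
  obtain ⟨e, u, ζ, e1, f⟩ := e
  obtain rfl : s = s' := e
  have a := ad0 h.sol.toAdm
  have a' := ad0 h'.sol.toAdm
  have A := fun o => Dgr80.adm_crit (C.crit o)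
  have hD := (y.N.cy_ok y.a).yd
  obtain ⟨g, sb⟩ := lim_uniq Bki64.isEnd_top a (A o) (A o') (h.lim false (H.act h.st _))
    (lim_pre ((D.Λ i).B_ok _ _) isOpen_univ (subset_univ _) (A o') a a' e1 (h'.lim false (H.act h.st _)))
  obtain rfl := C.sep _ _ (sb.eqv hD (A _) (A _))
  obtain ⟨ε, e2⟩ := stb_real hD (A o) h.nf sb
  rw [one_mul, div_one] at e2
  have := ceq_sgn (B := Bi F i) (B' := Bi F i) isOpen_univ e1 e2
  exact ⟨rfl, rfl, _, this.1, fun l => this.2 a'.ok.Jsq (f ⟨l, H.unc l⟩)⟩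

end Crest.Agent.X212.Exc36
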