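import Crest.Agent.X212.Exc36.Line
import Crest.Agent.X212.Sep15.Spl

/-! F-EXC (helper36), part 4: the equations of a half are transported along an equivalence. -/

set_option autoImplicit false
set_option linter.unusedSectionVars false
noncomputable section
open scoped Manifold ContDiff Topology
open Set Function Filter MeasureTheory

namespace Crest.Agent.X212.Exc36
open An M G75 Eqv71 Nd18 Ins26 Jb7 Wrd81
open Line51 (rl)
open Ins30 (Sq)
open Sep15.Spl (Rw rw_mp)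
open Cnt93 (Rh)

section tp
variable {M M' lam : Type} [Fintype lam] (t : Tp M M' lam lam) {r r' n n' : ℕ} (f : Fin r → Fin r')

theorem tp_co (d : Co M lam r) : t.co (d.mp f) = (t.co d).mp f := by cases d <;> rfl

theorem tp_mp (g : Fin n → Fin n') (T : Tm M lam r n) : t.tm (T.mp f g) = (t.tm T).mp f g := by
  cases T <;> simp only [Tm.mp, Tp.tm, tp_co]

theorem tp_xi (T : Xi M lam r) : t.xi (T.mp f) = (t.xi T).mp f := by
  cases T <;> simp only [Xi.mp, Tp.xi, tp_co]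

theorem rw_tp {g : Fin n' → Fin n} {T : Tm M lam r n} (h : Rw g T) : Rw g (t.tm T) := by
  cases T <;> exact h

end tp

theorem sum_rel {W V V' : Type} [NormedAddCommGroup V] [NormedSpace ℝ V] [NormedAddCommGroup V']
    [NormedSpace ℝ V'] (q : W →₀ ℝ) {T : W → CL V V} {T' : W → CL V' V'} {R : CL V V'} {c c' : W → ℝ}
    {a : V} (h : ∀ w, c w = 0 ∧ c' w = 0 ∨ c w = c' w ∧ T' w (R a) = R (T w a)) :
    R ((q.sum fun w x => (x * c w) • T w) a) = (q.sum fun w x => (x * c' w) • T' w) (R a) := by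
  simp only [Finsupp.sum, _root_.sum_apply, _root_.smul_apply, map_sum, map_smul]
  refine Finset.sum_congr rfl fun w _ => ?_
  rcases h w with h | h
  · rw [h.1, h.2, mul_zero, zero_smul, zero_smul]
  · rw [h.1, h.2]

variable {κ lam : Type} [Fintype κ] [Fintype lam] [DecidableEq lam] {Lm : LM κ lam} {S : Scene Lm}
  {y : G75.YD κ lam} {t : TD y S} {N : ND (yY y).M (lam ⊕ lam)} {n : ℕ} {D : S.Dat}
  {F : Pr t N n D} {c : Cn S.L S.A} {d R : ℕ} {T₀ : ℝ} {i i' : S.L} {σ σ' : Finset S.A}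
  {s s' : S.A ⊕ Unit → ℝ} {b : Bool} {r r' r₀ n₀ n₁ n₂ : ℕ} {q : F.Wi →₀ ℝ}

variable (t D) in
/-- configurations on the broken manifold -/
abbrev Cf (r : ℕ) : Type := Cfg (D.W.Z (cA t)).M (Option κ) (lam ⊕ lam) r

variable {x : Cf t D r} {x' : Cf t D r'} {u : (D.W.Z (cA t)).M → CL x.m.V x'.m.V}

variable (F b i i' s s' x x' u) in
/-- equivalent halves -/
abbrev HQ : Prop := HP (Oh t D b) (Bi F i) (Bi F i') (Gi F i s) (Gi F i' s') (vi F i i') x x' u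

variable (F i s) in
/-- a term on the broken manifold -/
abbrev tmi (T : Tm S.X.M (lam ⊕ lam) r n₁) := An.tmP (Bi F i) (Gi F i s).F ((tpi F i).tm T)

namespace Hp
variable (H : Hp F c d R T₀) (h : St F c i σ s)
include H h

theorem tpin (b : Bool) : (tpi F i).In S.X.I (D.W.Z (cA t)).I ((S.M.sys.w t.a).sd b) (Oh t D b) :=
  (H.ok.J i h.ne0 0 0).1.tp_in h.mem h.ov (sd_sub cA_eq b)

theorem sq (L : LH t D b i i') : Sq (tpi F i) (tpi F i') ((S.M.sys.w t.a).sd b) id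
    (fun x => rl ((S.N i).p x)) (Oh t D b) id (vi F i i') := On.sq _ _ F.m (sd_sub cA_eq b)
  (L.iso (Wall.op_sd _ _) (H.br h).1 (h.a.trans_ne one_ne_zero)).toUni

theorem out {T : Tm S.X.M (lam ⊕ lam) r n₁} (hT : TmIn S.X.I ((S.M.sys.w t.a).sd (!b)) T) (a : ℝ) :
    ∀ z ∈ Oh t D b, ((tmi F i s T).smul a).D x z = 0 ∧ ((tmi F i s T).smul a).C x z = 0 := fun z hz => by
  obtain ⟨K, -, h1, h2⟩ := ((H.tpin h _).tm hT).supp (ι := Option κ)
  have := h2 x (Bi F i) (Gi F i s).F z fun k => (H.compl b).ge (h1 k) hz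
  exact ⟨(congrArg (a • ·) this.1).trans (smul_zero _), (congrArg (a • ·) this.2).trans (smul_zero _)⟩

theorem row {k : ℝ} {τ : TrS S F.Wi r n₁} (ρ : Fin n₁) : ((F.jb c i k τ).τ (cA t) q s).S x ρ =
    q.sum fun w a => (a : ℂ) * (τ.co w s * (tmi F i s (τ.tw w)).S x ρ) := by
  rw [Job.τ, H.τ0 h, funext (H.τw h)]
  simp only [Pt.add, fsum, (van0_q1 _ _).S, ND.q2, mul_zero, Finsupp.sum_fun_zero, add_zero, zero_add]
  rfl

section two
variable (h' : St F c i' σ' s') (L : LH t D b i i') (P : HQ F i i' s s' b x x' u)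
include h' L P

theorem rt_tm {T : Tm S.X.M (lam ⊕ lam) r₀ n₀} (hT : TmIn S.X.I ((S.M.sys.w t.a).sd b) T)
    {f : Fin r₀ → Fin r} {f' : Fin r₀ → Fin r'} (hz : ∀ j, x'.z (f' j) = x.z (f j))
    (g : Fin n₀ → Fin n₁) (g' : Fin n₀ → Fin n₂) :
    RT (Oh t D b) (Bi F i) x x' u (tmi F i s (T.mp f g)) (tmi F i' s' (T.mp f' g')) ∧
      (Injective g → Injective g' → ∀ j,
        (tmi F i' s' (T.mp f' g')).S x' (g' j) = (tmi F i s (T.mp f g)).S x (g j)) := by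
  rw [tmi, tmi, tp_mp, tp_mp]
  exact P.tm hz subset_rfl subset_rfl g g' ((H.tpin h b).tm hT) ((H.tpin h' b).tm hT)
    ((H.sq h L).tm (tmR_refl _ (On.trn_p _) _))

theorem rt_q1 (e : Bool) : RT (Oh t D b) (Bi F i) x x' u
    ((N.smul 1).q1 (K0 F i (H.act h e)) : Pt _ _ _ r n₁) ((N.smul 1).q1 (K0 F i' (H.act h' e)) : Pt _ _ _ r' n₂) := by
  by_cases k : e = b
  · subst k
    exact HP.q1 (H.same h h' e) (fun _ hz => (H.tgt h hz).1) P (nd_smul F.ok 1)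
      fun _ hz => (H.tgt h hz).2 _ L
  · obtain rfl : e = !b := Bool.eq_not_iff.2 k
    exact rt_van ((van0_q1 _ _).mono fun z hz j => (H.compl b).ge (H.tgt h j).1 hz)
      ((van0_q1 _ _).mono fun z hz j => (H.compl b).ge (H.tgt h' j).1 hz)

theorem rt_q2 (e : Bool) (T : yW y) : RT (Oh t D b) (Bi F i) x x' u
    (N.q2 (K0 F i (H.act h e)) T.1 : Pt _ _ _ r n₁) (N.q2 (K0 F i' (H.act h' e)) T.1 : Pt _ _ _ r' n₂) := by
  by_cases k : e = b
  · subst k
    exact HP.q2 (H.same h h' e) (fun _ hz => (H.tgt h hz).1) P F.ok T.2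
  · obtain rfl : e = !b := Bool.eq_not_iff.2 k
    exact rt_van ((van0_q2 _ _ _).mono fun z hz j => (H.compl b).ge (H.tgt h j).1 hz)
      ((van0_q2 _ _ _).mono fun z hz j => (H.compl b).ge (H.tgt h' j).1 hz)

theorem rt_τ {k k' : ℝ} {τ : TrS S F.Wi r n₁} {τ' : TrS S F.Wi r' n₂}
    (hw : ∀ w, RT (Oh t D b) (Bi F i) x x' u ((tmi F i s (τ.tw w)).smul (τ.co w s))
      ((tmi F i' s' (τ'.tw w)).smul (τ'.co w s'))) :
    RT (Oh t D b) (Bi F i) x x' u ((F.jb c i k τ).τ (cA t) q s) ((F.jb c i' k' τ').τ (cA t) q s') := by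
  rw [Job.τ, Job.τ, H.τ0 h, H.τ0 h', funext (H.τw h), funext (H.τw h')]
  exact ((H.rt_q1 h h' L P _).add (H.rt_q1 h h' L P _)).add (rt_fsum (fun w => (hw w).add
    ((rt_fsum (H.rt_q2 h h' L P _) _).add (rt_fsum (H.rt_q2 h h' L P _) _))) q)

end two

omit H h in
theorem rt0 {τ : Pt _ _ _ r n₁} {τ' : Pt _ _ _ r' n₂} {a a' : ℝ} (e : a = 0) (e' : a' = 0) :
    RT (Oh t D b) (Bi F i) x x' u (τ.smul a) (τ'.smul a') := by
  subst e e'
  exact rt_zero (fun _ _ => ⟨zero_smul _ _, zero_smul _ _⟩) fun _ _ => ⟨zero_smul _ _, zero_smul _ _⟩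

variable {m m' : ℕ} {k k' : Fin (n + 1)}

theorem rt_L (h' : St F c i' σ' s') {x : Cf t D (m - k + 1 + n)} {x' : Cf t D (m - k' + 1 + n)} {u}
    (P : HQ F i i' s s' false x x' u) (e : ∀ z, t.Sd false z → s (.inl z) = s' (.inl z))
    (hz : ∀ j, x'.z (Pr.eL m k' j) = x.z (Pr.eL m k j)) : RT (Oh t D false) (Bi F i) x x' u
      ((F.J c d i m k).τ (cA t) q s) ((F.J c d i' m k').τ (cA t) q s') :=
  have L := le_orb H.hy H.ht H.cn.ok h.ne0 h'.ne0
  H.rt_τ h h' L P fun w => by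
    rcases w with w | w | w | w | w
    · exact rt0 (H.ok.off i m k w s (H.one h)).1 (H.ok.off i' m k' w s' (H.one h')).1
    · have := ((H.rt_tm h h' L P (H.ok.supL m w).1 hz Fin.elim0 Fin.elim0 (n₁ := n) (n₂ := n)).1).smul
        ((F.tL m).co w s)
      nth_rw 2 [H.ok.locL m w i σ i' σ' s s' h.ne h'.ne (H.fc h) (H.fc h') e] at this
      exact this
    · exact rt_zero (H.out h (b := false) (Fex7.tmIn_mp _ _ (H.ok.supR i k w).1) _)
        (H.out h' (b := false) (Fex7.tmIn_mp _ _ (H.ok.supR i' k' w).1) _)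
    · exact rt_zero (fun _ _ => ⟨smul_zero _, smul_zero _⟩) fun _ _ => ⟨smul_zero _, smul_zero _⟩
    · exact rt0 rfl rfl

theorem row_D {x : Cf t D (m - k + 1 + n)} {ρ : Fin n} (hρ : (k : ℕ) ≤ ρ) :
    ((F.J c d i m k).τ (cA t) q s).S x ρ = q (F.wD ρ) * x.z (Fin.natAdd _ ρ) := by
  have z : ∀ {T : Tm S.X.M (lam ⊕ lam) _ n} (a b : ℂ), Rw (fun _ : Fin 1 => ρ) T →
      a * (b * (tmi F i s T).S x ρ) = 0 := fun a b e =>
    mul_eq_zero_of_right _ (mul_eq_zero_of_right _ ((rw_tp _ e).tS x _ 0))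
  have z' : ∀ (a b : ℂ) {e : ℝ}, e = 0 → a * (e * b) = 0 := fun a b e k => by simp [k]
  rw [H.row h, Finsupp.sum_eq_single (F.wD ρ) (fun w _ ne => ?_) fun _ => by simp]
  · have e : (F.tt i m k).co (F.wD ρ) s = 1 := (if_pos hρ).trans
      (Fex7.swp_ge H.ok.T.2.2 (by linarith [H.one h, H.ok.T.2.2]))
    rw [e, Complex.ofReal_one, one_mul]
    exact congrArg _ ((Pi.single_eq_same (M := fun _ => ℂ) _ _).trans (one_mul _))
  rcases w with w | w | w | w | w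
  · exact z' _ _ (H.ok.off i m k w s (H.one h)).1
  · exact z _ _ (rw_mp (fun j => j.elim0) _ _)
  · exact z _ _ (rw_mp (fun j ⟨_, e⟩ => (j.2.trans_le hρ).ne (congrArg Fin.val e).symm) _ _)
  · exact z _ _ fun ⟨_, e⟩ => ne (congrArg F.wD (Eq.symm e))
  · exact z' _ _ rfl

theorem cut_rel (l : S.ls) : (Ct F i l).Rel (Ct F i l) (Oh t D true) id (vi F i i) :=
  (H.sq h .rfl).cut (k := S.ct i l) (k' := S.ct i l)
    ⟨((H.ok.J i h.ne0 0 0).1.nb l).2.sub.trans (H.nb_sub l), fun _ _ => rfl,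
      List.forall₂_same.2 fun _ _ => ⟨fun _ _ => rfl, fun _ _ => rfl, fun _ _ => rfl⟩,
      List.forall₂_same.2 fun _ _ => ⟨fun x _ => (On.trn_p _ x _).symm, fun _ _ => rfl, fun _ _ => rfl⟩⟩
    fun x hx => ⟨⟨x, hx, rfl⟩, rfl⟩

theorem cut_ok (l : S.ls) : (Ct F i l).OK (Bi F i) (Gi F i s).F :=
  (H.ok.J i h.ne0 0 0).1.ct _ h.mem s (Job.cl_dom _ h.cell) _ h.inf l (H.unc l)

variable (h' : St F c i σ' s') {x₁ : Cf t D (m - k + 1 + n)} {x₂ : Cf t D (m' - k + 1 + n)}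
  {u₁ : (D.W.Z (cA t)).M → CL x₁.m.V x₂.m.V} (P : HQ F i i s s' true x₁ x₂ u₁)
  (e : ∀ z, t.Sd true z → s (.inl z) = s' (.inl z))
include h' P e

theorem rt_R : RT (Oh t D true) (Bi F i) x₁ x₂ u₁
    ((F.J c d i m k).τ (cA t) q s) ((F.J c d i m' k).τ (cA t) q s') :=
  H.rt_τ h h' .rfl P fun w => by
    rcases w with w | w | w | w | w
    · exact rt0 (H.ok.off i m k w s (H.one h)).1 (H.ok.off i m' k w s' (H.one h')).1
    · exact rt_zero (H.out h (b := true) (Fex7.tmIn_mp _ _ (H.ok.supL m w).1) _)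
        (H.out h' (b := true) (Fex7.tmIn_mp _ _ (H.ok.supL m' w).1) _)
    · have := ((H.rt_tm h h' .rfl P (H.ok.supR i k w).1 (f := Fin.elim0) (f' := Fin.elim0)
        (fun j => j.elim0) (Pr.eR k) (Pr.eR k)).1).smul ((F.tR i k).co w s)
      nth_rw 2 [(H.ok.locR k w i σ σ' s s' h.ne h'.ne (H.fc h) (H.fc h') e).1] at this
      exact this
    · exact rt_zero (fun _ _ => ⟨smul_zero _, smul_zero _⟩) fun _ _ => ⟨smul_zero _, smul_zero _⟩
    · exact rt0 rfl rfl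

theorem row_R (j : Fin k) : ((F.J c d i m' k).τ (cA t) q s').S x₂ (Pr.eR k j) =
    ((F.J c d i m k).τ (cA t) q s).S x₁ (Pr.eR k j) := by
  have z : ∀ {r} {T : Tm S.X.M (lam ⊕ lam) r n} s x (b : ℂ), Rw (Pr.eR k) T →
      b * (tmi F i s T).S x (Pr.eR k j) = 0 := fun s x b e =>
    mul_eq_zero_of_right _ ((rw_tp _ e).tS x _ j)
  have z' : ∀ (b : ℂ) {e : ℝ}, e = 0 → e * b = 0 := fun b e k => by simp [k]
  rw [H.row h, H.row h']
  refine Finsupp.sum_congr fun w _ => congrArg _ ?_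
  rcases w with w | w | w | w | w
  · exact (z' _ (H.ok.off i m' k w s' (H.one h')).1).trans (z' _ (H.ok.off i m k w s (H.one h)).1).symm
  · exact (z _ _ _ (rw_mp (fun j => j.elim0) _ _)).trans (z _ _ _ (rw_mp (fun j => j.elim0) _ _)).symm
  · exact congrArg₂ _ (congrArg _ (H.ok.locR k w i σ σ' s s' h.ne h'.ne (H.fc h) (H.fc h') e).1.symm)
      ((H.rt_tm h h' .rfl P (H.ok.supR i k w).1 (f := Fin.elim0) (f' := Fin.elim0) (fun j => j.elim0)
        (Pr.eR k) (Pr.eR k)).2 (Fin.castLE_injective _) (Fin.castLE_injective _) j)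
  · by_cases o : (k : ℕ) ≤ w
    · have : ∀ j, Pr.eR k j ≠ w := fun j e => (j.2.trans_le o).ne (congrArg Fin.val e)
      exact (z _ _ _ fun ⟨j, e⟩ => this j e).trans (z _ _ _ fun ⟨j, e⟩ => this j e).symm
    · exact (z' _ (if_neg o)).trans (z' _ (if_neg o)).symm
  · exact (z' _ rfl).trans (z' _ rfl).symm

set_option maxRecDepth 4000 in
theorem cut_tr (l : S.ls) {a : (Ct F i l).H (Bi F i) x₁.m}
    (ha : (Ct F i l).Sol (Bi F i) (Gi F i s).F ((F.J c d i m k).σc (cA t) q s l) x₁ a) :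
    ∃ a', (Ct F i l).Sol (Bi F i) (Gi F i s').F ((F.J c d i m' k).σc (cA t) q s' l) x₂ a' ∧
      (Ct F i l).Eqv (Ct F i l) (Bi F i) (Bi F i) u₁ a a' := by
  have g := P.g.toLG.of_ceq (ad_nz P.a) (ad_nz P.a') P.e
  have R := H.cut_rel h l
  refine ⟨Rh _ _ _ _ u₁ 1 a, ⟨(Cnt93.norm_Rh g R 1 a).trans ha.1,
    (Cnt93.T_nat g R 1 (H.cut_ok h l) (H.cut_ok h' l) a).trans ((congrArg _ ha.2).trans ?_)⟩,
    1, Cnt93.coe_Rh g R 1 a⟩
  refine sum_rel q fun w => ?_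
  rcases w with w | w | w | w | w
  · exact .inl ⟨(H.ok.off i m k w s (H.one h)).2 l, (H.ok.off i m' k w s' (H.one h')).2 l⟩
  · exact .inl ⟨congrFun ((H.ok.supL m w).2 l) s, congrFun ((H.ok.supL m' w).2 l) s'⟩
  · have r : Cnt93.TcR ((S.M.sys.w t.a).sd true) id (fun x => rl ((S.N i).p x)) ((F.tR i k).tc l w)
        ((F.tR i k).tc l w) := by
      have q := On.trn_p (S.N i)
      refine ⟨rfl, rfl, rfl, ?_⟩
      cases ((F.tR i k).tc l w).ξ
      exacts [.one, .aw (awR_refl _ _), .qj (coR_refl _ q _) (sR_refl _ q _) (swR_refl _ _)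
        (swR_refl _ _) (lasR_refl _ _)]
    have := P.tc (f := Fin.elim0) (f' := Fin.elim0) (fun j => j.elim0) subset_rfl subset_rfl
      (H.cut_ok h l) (H.cut_ok h' l) R (Cnt93.γ_mem R 0 0) ((H.tpin h _).xi ((H.ok.supR i k w).2 l))
      ((H.tpin h' _).xi ((H.ok.supR i k w).2 l)) ((H.sq h .rfl).tc r) 1 a
    simp only [Tp.tc, ← tp_xi] at this
    exact .inr ⟨(H.ok.locR k w i σ σ' s s' h.ne h'.ne (H.fc h) (H.fc h') e).2 l, this⟩
  · exact .inl ⟨rfl, rfl⟩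
  · exact .inl ⟨rfl, rfl⟩

end Hp

end Crest.Agent.X212.Exc36
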